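import Vale.Agent.H14.CT.BoxDefs

/-!
P328: the slice-free form of the slicing hypothesis (definitions only).
-/

namespace Vale.Agent.H14.CT

open Finset Vale.Agent.H90

variable {n : ℕ} {s : Fin n → ℕ} {ρ : ℕ}

/-- Slice relation of the column `a`: the two vectors have the same entry at `a`. -/
def SliceRel (a : Fin n) (z w : Box n s ρ) : Prop := z.1 a = w.1 a

instance (a : Fin n) : DecidableRel (SliceRel (s := s) (ρ := ρ) a) := fun z w => by
  unfold SliceRel; infer_instance

/-- The slice-free form (S0') of the slicing hypothesis: in a class with at least three columns,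
for every column `a` and every `f` of zero sum, the sum of the penalties of `f` over all ordered
pairs of distinct columns is at most the sum of the block Dirichlet forms of the pairs
containing `a` plus the sum over the pairs not containing `a` of the penalties of
`f - E_a f`, where `E_a f` is the average of `f` over the slices `{z a = const}`.  All
penalties, depths and level counts are those of the class itself. -/
def SliceFreeHyp : Prop :=
  ∀ (n : ℕ), 2 ≤ n → ∀ (s : Fin (n + 1) → ℕ) (ρ : ℕ) (a : Fin (n + 1))
    (f : Box (n + 1) s ρ → ℝ), ∑ z, f z = 0 →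
    ∑ x : Fin (n + 1), ∑ y : Fin (n + 1), (if x ≠ y then penB x y f else 0)
      ≤ ∑ x : Fin (n + 1), ∑ y : Fin (n + 1),
          (if x ≠ y ∧ (x = a ∨ y = a) then QB x y f else 0)
        + ∑ x : Fin (n + 1), ∑ y : Fin (n + 1),
          (if x ≠ y ∧ x ≠ a ∧ y ≠ a then
            penB x y (fun z => f z - avgRel (SliceRel a) f z) else 0)

end Vale.Agent.H14.CT
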