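import Vale.Agent.H14.CT.BoxBridge

/-!
P328, row B3-G: the one-dimensional theorem on box-slice classes: for `f` of zero sum the sum
over the ordered pairs of columns of the block Dirichlet forms is at least `2 ∑ f ^ 2`.

Paper proof.  If the class is empty both sides vanish.  Otherwise `ρ ≤ ∑ s`; with
`r = ![ρ, ∑ s - ρ]` the class `Omega r s` of two-rowed tables corresponds to `Box n s ρ`
(`boxEquiv`, first row; `blockRel_iff_lineRel`), and the claim is
`Vale.Agent.H91.CT.block_ge_row_sq` for the rows `0, 1` (the relation `RowRel 0 1` is total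
on a class of two-rowed tables, so its average of `f` is `0`), transported by
`Vale.Agent.H91.CT.sum_sq_transport`.
-/

namespace Vale.Agent.H14.CT

open Finset Vale.Agent.H90 Vale.Agent.H88.CT Vale.Agent.H91.CT

/-- The statement for the class of first rows of the two-rowed tables with margins `r, c`. -/
theorem b3g_aux {n : ℕ} (r : Fin 2 → ℕ) (c : Fin n → ℕ) (hr : ∑ k, c k = r 0 + r 1)
    (g : Box n c (r 0) → ℝ) (hg : ∑ z, g z = 0) :
    2 * ∑ z, g z ^ 2 ≤ ∑ a : Fin n, ∑ b : Fin n, (if a ≠ b then QB a b g else 0) := by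
  classical
  set e := boxEquiv (r := r) (c := c) hr with he
  set f : Omega r c → ℝ := fun X => g (e X) with hfdef
  have hf : ∑ X, f X = 0 := by
    rw [← hg]
    exact Equiv.sum_comp e g
  have h01 : (0 : Fin 2) ≠ 1 := by decide
  have hgap := block_ge_row_sq (r := r) (c := c) 0 1 h01 f
  have hmean : ∀ X : Omega r c, avgRel (RowRel (r := r) (c := c) 0 1) f X = 0 := by
    intro X
    unfold avgRel
    have hall : univ.filter (fun Y : Omega r c => RowRel 0 1 X Y) = univ := by
      refine Finset.filter_true_of_mem (fun Y _ => ?_)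
      intro k hk0 hk1
      exfalso
      have : k = 0 ∨ k = 1 := by omega
      rcases this with h' | h'
      · exact hk0 h'
      · exact hk1 h'
    rw [hall, hf, zero_div]
  simp only [hmean, sub_zero] at hgap
  have hfe : ∀ z : Box n c (r 0), f (e.symm z) = g z := by
    intro z
    rw [hfdef]
    simp only [Equiv.apply_symm_apply]
  have hQ : ∀ a b : Fin n, QB a b g
      = ∑ X, (f X - avgRel (BlockRel 0 1 a b) f X) ^ 2 := by
    intro a b
    have h := sum_sq_transport e (BlockRel 0 1 a b) (LineRel a b)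
      (fun X Y => blockRel_iff_lineRel hr a b X Y) f
    rw [h]
    unfold QB
    have hfun : (fun y' : Box n c (r 0) => f (e.symm y')) = g := funext hfe
    rw [hfun]
    exact Finset.sum_congr rfl (fun z _ => by rw [hfe z])
  have hsq : ∑ X, f X ^ 2 = ∑ z, g z ^ 2 := Equiv.sum_comp e (fun z => g z ^ 2)
  simp only [hQ]
  rw [← hsq]
  exact hgap

theorem box_gap {n : ℕ} (s : Fin n → ℕ) (ρ : ℕ) (f : Box n s ρ → ℝ) (hf : ∑ z, f z = 0) :
    2 * ∑ z, f z ^ 2 ≤ ∑ a : Fin n, ∑ b : Fin n, (if a ≠ b then QB a b f else 0) := by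
  classical
  by_cases hne : Nonempty (Box n s ρ)
  · obtain ⟨z0⟩ := hne
    have hle : ρ ≤ ∑ k, s k := by
      rw [← z0.2.2]
      exact Finset.sum_le_sum (fun k _ => z0.2.1 k)
    obtain ⟨r, hr0, hr⟩ : ∃ r : Fin 2 → ℕ, r 0 = ρ ∧ ∑ k, s k = r 0 + r 1 := by
      refine ⟨![ρ, ∑ k, s k - ρ], rfl, ?_⟩
      simp only [Matrix.cons_val_zero, Matrix.cons_val_one]
      omega
    subst hr0
    exact b3g_aux r s hr f hf
  · have hemp : IsEmpty (Box n s ρ) := not_nonempty_iff.1 hne
    have h1 : ∑ z, f z ^ 2 = 0 := Finset.sum_eq_zero (fun z _ => (hemp.false z).elim)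
    have h2 : ∑ a : Fin n, ∑ b : Fin n, (if a ≠ b then QB a b f else 0) = 0 := by
      refine Finset.sum_eq_zero (fun a _ => Finset.sum_eq_zero (fun b _ => ?_))
      by_cases hab : a ≠ b
      · rw [if_pos hab]
        unfold QB
        exact Finset.sum_eq_zero (fun z _ => (hemp.false z).elim)
      · rw [if_neg hab]
    rw [h1, h2, mul_zero]

end Vale.Agent.H14.CT
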