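import Vale.Agent.H14.CT.BoxSlice

/-!
P328: the pooling inequality for penalties.  For a pair of columns different from `a`, the
closed-form penalty of a function on a box-slice class is at most the sum of the penalties of
its restrictions to the slices `{z a = j}` (Cauchy-Schwarz over the slices, for every level).
-/

namespace Vale.Agent.H14.CT

open Finset Vale.Agent.H90

section level

variable {n : ℕ} {s : Fin n → ℕ} {ρ : ℕ}

theorem sum_two_erase (a b : Fin n) (hab : a ≠ b) (v : Fin n → ℕ) :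
    ∑ k, v k = v a + v b + ∑ k ∈ (univ.erase a).erase b, v k := by
  rw [← Finset.add_sum_erase univ v (Finset.mem_univ a),
    ← Finset.add_sum_erase (univ.erase a) v
      (Finset.mem_erase.2 ⟨hab.symm, Finset.mem_univ b⟩), add_assoc]

/-- The vector `z` with the entries at `a, b` replaced by `t` and `z a + z b - t`. -/
def lineFun (a b : Fin n) (z : Fin n → ℕ) (t : ℕ) : Fin n → ℕ :=
  fun k => if k = a then t else if k = b then z a + z b - t else z k

theorem lineFun_a (a b : Fin n) (z : Fin n → ℕ) (t : ℕ) : lineFun a b z t a = t := by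
  unfold lineFun
  rw [if_pos rfl]

theorem lineFun_b (a b : Fin n) (hab : a ≠ b) (z : Fin n → ℕ) (t : ℕ) :
    lineFun a b z t b = z a + z b - t := by
  unfold lineFun
  rw [if_neg hab.symm, if_pos rfl]

theorem lineFun_other (a b : Fin n) (z : Fin n → ℕ) (t : ℕ) (k : Fin n) (hka : k ≠ a)
    (hkb : k ≠ b) : lineFun a b z t k = z k := by
  unfold lineFun
  rw [if_neg hka, if_neg hkb]

theorem lineFun_sum (a b : Fin n) (hab : a ≠ b) (z : Fin n → ℕ) (t : ℕ) (ht : t ≤ z a + z b) :
    ∑ k, lineFun a b z t k = ∑ k, z k := by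
  rw [sum_two_erase a b hab (lineFun a b z t), sum_two_erase a b hab z, lineFun_a,
    lineFun_b a b hab]
  have h : ∑ k ∈ (univ.erase a).erase b, lineFun a b z t k
      = ∑ k ∈ (univ.erase a).erase b, z k := by
    refine Finset.sum_congr rfl (fun k hk => ?_)
    have hkb : k ≠ b := (Finset.mem_erase.1 hk).1
    have hka : k ≠ a := (Finset.mem_erase.1 (Finset.mem_erase.1 hk).2).1
    exact lineFun_other a b z t k hka hkb
  rw [h]
  omega

/-- On a line of depth at least `d` there is a point of level `d`. -/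
theorem exists_levelB (a b : Fin n) (hab : a ≠ b) (z : Box n s ρ) (d : ℕ)
    (hd : d ≤ depthB a b z) : ∃ w : Box n s ρ, levelB a b w = d := by
  have hza := z.2.1 a
  have hzb := z.2.1 b
  unfold depthB at hd
  have ht : (z.1 a + z.1 b - min (z.1 a + z.1 b) (s b)) + d ≤ z.1 a + z.1 b := by omega
  have hbox : ∀ k, lineFun a b z.1 ((z.1 a + z.1 b - min (z.1 a + z.1 b) (s b)) + d) k ≤ s k := by
    intro k
    by_cases hka : k = a
    · rw [hka, lineFun_a]
      omega
    · by_cases hkb : k = b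
      · rw [hkb, lineFun_b a b hab]
        omega
      · rw [lineFun_other a b z.1 _ k hka hkb]
        exact z.2.1 k
  have hsum : ∑ k, lineFun a b z.1 ((z.1 a + z.1 b - min (z.1 a + z.1 b) (s b)) + d) k = ρ := by
    rw [lineFun_sum a b hab z.1 _ ht]
    exact z.2.2
  refine ⟨⟨lineFun a b z.1 ((z.1 a + z.1 b - min (z.1 a + z.1 b) (s b)) + d), hbox, hsum⟩, ?_⟩
  unfold levelB
  show min (lineFun a b z.1 ((z.1 a + z.1 b - min (z.1 a + z.1 b) (s b)) + d) a)
    (s b - lineFun a b z.1 ((z.1 a + z.1 b - min (z.1 a + z.1 b) (s b)) + d) b) = d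
  rw [lineFun_a, lineFun_b a b hab]
  omega

end level

/-- Sedrakyan's inequality with vanishing weights allowed. -/
theorem sedrakyan0 {ι : Type*} (S : Finset ι) (x m : ι → ℝ) (hm : ∀ j ∈ S, 0 ≤ m j)
    (hx : ∀ j ∈ S, m j = 0 → x j = 0) (κ : ℝ) (hκ : 0 < κ) :
    (∑ j ∈ S, x j) ^ 2 / (κ * ∑ j ∈ S, m j) ≤ ∑ j ∈ S, x j ^ 2 / (κ * m j) := by
  have hterm : ∀ j ∈ S, 0 ≤ x j ^ 2 / (κ * m j) := fun j hj =>
    div_nonneg (sq_nonneg _) (mul_nonneg hκ.le (hm j hj))
  have hcs : (∑ j ∈ S, x j) ^ 2 ≤ (∑ j ∈ S, x j ^ 2 / (κ * m j)) * ∑ j ∈ S, κ * m j := by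
    refine Finset.sum_sq_le_sum_mul_sum_of_sq_le_mul S hterm
      (fun j hj => mul_nonneg hκ.le (hm j hj)) (fun j hj => ?_)
    by_cases h0 : m j = 0
    · rw [hx j hj h0, h0]
      simp
    · have h1 : κ * m j ≠ 0 := mul_ne_zero hκ.ne' h0
      rw [div_mul_cancel₀ _ h1]
  rw [← Finset.mul_sum] at hcs
  by_cases hM : ∑ j ∈ S, m j = 0
  · rw [hM, mul_zero, div_zero]
    exact Finset.sum_nonneg hterm
  · have hMpos : 0 < κ * ∑ j ∈ S, m j :=
      mul_pos hκ (lt_of_le_of_ne (Finset.sum_nonneg hm) (Ne.symm hM))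
    rw [div_le_iff₀ hMpos]
    exact hcs

variable {n : ℕ} {s : Fin (n + 1) → ℕ} {ρ : ℕ}

theorem depthB_insB (a : Fin (n + 1)) (j : ℕ) (hj : j ≤ s a) (hρ : j ≤ ρ) (b c : Fin n)
    (w : Box n (fun k => s (a.succAbove k)) (ρ - j)) :
    depthB (a.succAbove b) (a.succAbove c) (insB a j hj hρ w) = depthB b c w := by
  unfold depthB
  rw [insB_succAbove, insB_succAbove]

theorem levelB_insB (a : Fin (n + 1)) (j : ℕ) (hj : j ≤ s a) (hρ : j ≤ ρ) (b c : Fin n)
    (w : Box n (fun k => s (a.succAbove k)) (ρ - j)) :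
    levelB (a.succAbove b) (a.succAbove c) (insB a j hj hρ w) = levelB b c w := by
  unfold levelB
  rw [insB_succAbove, insB_succAbove]

/-- A sum over a subset of the class given by a condition that is read off the slices. -/
theorem sum_filter_slices (a : Fin (n + 1)) (g : Box (n + 1) s ρ → ℝ)
    (p : Box (n + 1) s ρ → Prop) [DecidablePred p]
    (q : ∀ j : ℕ, Box n (fun k => s (a.succAbove k)) (ρ - j) → Prop)
    [∀ j, DecidablePred (q j)]
    (hpq : ∀ (j : ℕ) (hj : j ≤ s a) (hρ : j ≤ ρ)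
      (w : Box n (fun k => s (a.succAbove k)) (ρ - j)), p (insB a j hj hρ w) ↔ q j w) :
    ∑ z ∈ univ.filter p, g z
      = ∑ j ∈ Finset.range (min (s a) ρ + 1), ∑ w ∈ univ.filter (q j), sliceFun a j g w := by
  rw [Finset.sum_filter, sum_slices a (fun z => if p z then g z else 0)]
  refine Finset.sum_congr rfl (fun j hj => ?_)
  rw [Finset.mem_range] at hj
  have hj1 : j ≤ s a := by omega
  have hj2 : j ≤ ρ := by omega
  rw [Finset.sum_filter]
  refine Finset.sum_congr rfl (fun w _ => ?_)
  rw [sliceFun_eq a j hj1 hj2, sliceFun_eq a j hj1 hj2]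
  by_cases hq : q j w
  · rw [if_pos hq, if_pos ((hpq j hj1 hj2 w).2 hq)]
  · rw [if_neg hq, if_neg (fun hp => hq ((hpq j hj1 hj2 w).1 hp))]

/-- The pooling inequality: for a pair of columns different from `a`, the penalty of `g` is at
most the sum of the penalties of its restrictions to the slices `{z a = j}`. -/
theorem penB_pool (a : Fin (n + 1)) (b c : Fin n) (hbc : b ≠ c) (g : Box (n + 1) s ρ → ℝ) :
    penB (a.succAbove b) (a.succAbove c) g
      ≤ ∑ j ∈ Finset.range (min (s a) ρ + 1), penB b c (sliceFun a j g) := by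
  unfold penB
  rw [Finset.sum_comm]
  refine Finset.sum_le_sum (fun d hd => ?_)
  have hd1 : 1 ≤ d := (Finset.mem_Icc.1 hd).1
  have hT : ∑ z ∈ univ.filter
        (fun z : Box (n + 1) s ρ => d ≤ depthB (a.succAbove b) (a.succAbove c) z), g z
      = ∑ j ∈ Finset.range (min (s a) ρ + 1),
          ∑ w ∈ univ.filter
            (fun w : Box n (fun k => s (a.succAbove k)) (ρ - j) => d ≤ depthB b c w),
            sliceFun a j g w :=
    sum_filter_slices a g _ (fun j w => d ≤ depthB b c w)
      (fun j hj hρ w => by rw [depthB_insB])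
  have hM : ((univ.filter
        (fun z : Box (n + 1) s ρ => levelB (a.succAbove b) (a.succAbove c) z = d)).card : ℝ)
      = ∑ j ∈ Finset.range (min (s a) ρ + 1),
          ((univ.filter
            (fun w : Box n (fun k => s (a.succAbove k)) (ρ - j) => levelB b c w = d)).card : ℝ) := by
    have h1 := sum_filter_slices a (fun _ => (1 : ℝ))
      (fun z : Box (n + 1) s ρ => levelB (a.succAbove b) (a.succAbove c) z = d)
      (fun j w => levelB b c w = d) (fun j hj hρ w => by rw [levelB_insB])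
    rw [Finset.sum_const, nsmul_eq_mul, mul_one] at h1
    rw [h1]
    refine Finset.sum_congr rfl (fun j hj => ?_)
    rw [Finset.mem_range] at hj
    have hj1 : j ≤ s a := by omega
    have hj2 : j ≤ ρ := by omega
    have h2 : ∀ w ∈ univ.filter
        (fun w : Box n (fun k => s (a.succAbove k)) (ρ - j) => levelB b c w = d),
        sliceFun a j (fun _ : Box (n + 1) s ρ => (1 : ℝ)) w = 1 :=
      fun w _ => sliceFun_eq a j hj1 hj2 _ w
    rw [Finset.sum_congr rfl h2, Finset.sum_const, nsmul_eq_mul, mul_one]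
  rw [hT, hM]
  have hκ : (0 : ℝ) < (d : ℝ) * (d + 1) := by
    have : (1 : ℝ) ≤ d := by exact_mod_cast hd1
    nlinarith
  refine sedrakyan0 (Finset.range (min (s a) ρ + 1))
    (fun j => ∑ w ∈ univ.filter
      (fun w : Box n (fun k => s (a.succAbove k)) (ρ - j) => d ≤ depthB b c w),
      sliceFun a j g w)
    (fun j => ((univ.filter
      (fun w : Box n (fun k => s (a.succAbove k)) (ρ - j) => levelB b c w = d)).card : ℝ))
    (fun j _ => Nat.cast_nonneg _) (fun j _ h0 => ?_) ((d : ℝ) * (d + 1)) hκ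
  have h0' : (univ.filter
      (fun w : Box n (fun k => s (a.succAbove k)) (ρ - j) => levelB b c w = d)).card = 0 := by
    exact_mod_cast h0
  have hemp : univ.filter
      (fun w : Box n (fun k => s (a.succAbove k)) (ρ - j) => d ≤ depthB b c w) = ∅ := by
    refine Finset.filter_false_of_mem (fun w _ hw => ?_)
    obtain ⟨w', hw'⟩ := exists_levelB b c hbc w d hw
    have hmem : w' ∈ univ.filter
        (fun w : Box n (fun k => s (a.succAbove k)) (ρ - j) => levelB b c w = d) :=
      Finset.mem_filter.2 ⟨Finset.mem_univ _, hw'⟩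
    rw [Finset.card_eq_zero.1 h0'] at hmem
    exact (Finset.notMem_empty _ hmem)
  show ∑ w ∈ univ.filter
      (fun w : Box n (fun k => s (a.succAbove k)) (ρ - j) => d ≤ depthB b c w),
      sliceFun a j g w = 0
  rw [hemp, Finset.sum_empty]

end Vale.Agent.H14.CT
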