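import Vale.Agent.H14.CT.BoxSlice
import Vale.Agent.H91.CT.Chain

/-!
P328: the slicing hypothesis gives the surplus inequality on box-slice classes with constant
`1 - 2 / (n (n - 1))`.

Slice away the columns different from a given pair `b, c` one after the other: by `SliceHyp`
the slack decreases, and on a class with the two columns `b, c` only the slack is
`QB b c + QB c b` (the penalties of centred functions vanish).  Hence
`QB b c f + QB c b f ≤ slackB f` for every pair, and the sum over the pairs gives the claim.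
-/

namespace Vale.Agent.H14.CT

open Finset Vale.Agent.H90

theorem sum_centreB {n : ℕ} {s : Fin n → ℕ} {ρ : ℕ} (f : Box n s ρ → ℝ) :
    ∑ z, centreB f z = 0 := by
  unfold centreB
  rw [Finset.sum_sub_distrib, Finset.sum_const, Finset.card_univ, nsmul_eq_mul]
  by_cases h0 : (Fintype.card (Box n s ρ) : ℝ) = 0
  · have h1 : Fintype.card (Box n s ρ) = 0 := by exact_mod_cast h0
    have h2 : IsEmpty (Box n s ρ) := Fintype.card_eq_zero_iff.1 h1
    rw [h0, zero_mul, sub_zero]
    exact Finset.sum_eq_zero (fun z _ => (h2.false z).elim)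
  · rw [mul_div_cancel₀ _ h0, sub_self]

theorem centreB_of_sum_zero {n : ℕ} {s : Fin n → ℕ} {ρ : ℕ} (f : Box n s ρ → ℝ)
    (hf : ∑ z, f z = 0) : centreB f = f := by
  funext z
  unfold centreB
  rw [hf, zero_div, sub_zero]

/-- On a class with two columns the depth is constant. -/
theorem depthB_two {s : Fin 2 → ℕ} {ρ : ℕ} (a b : Fin 2) (hab : a ≠ b) (z w : Box 2 s ρ) :
    depthB a b z = depthB a b w := by
  have hz := z.2.2
  have hw := w.2.2
  rw [Fin.sum_univ_two] at hz hw
  have hz0 := z.2.1 0
  have hz1 := z.2.1 1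
  have hw0 := w.2.1 0
  have hw1 := w.2.1 1
  unfold depthB
  fin_cases a <;> fin_cases b
  · exact absurd rfl hab
  · simp only [Fin.zero_eta, Fin.mk_one]
    omega
  · simp only [Fin.zero_eta, Fin.mk_one]
    omega
  · exact absurd rfl hab

/-- On a class with two columns the penalty of a function of zero sum vanishes. -/
theorem penB_two {s : Fin 2 → ℕ} {ρ : ℕ} (a b : Fin 2) (hab : a ≠ b) (g : Box 2 s ρ → ℝ)
    (hg : ∑ z, g z = 0) : penB a b g = 0 := by
  unfold penB
  refine Finset.sum_eq_zero (fun d _ => ?_)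
  have hnum : ∑ z ∈ univ.filter (fun z : Box 2 s ρ => d ≤ depthB a b z), g z = 0 := by
    by_cases hex : ∃ z0 : Box 2 s ρ, d ≤ depthB a b z0
    · obtain ⟨z0, hz0⟩ := hex
      have hall : univ.filter (fun z : Box 2 s ρ => d ≤ depthB a b z) = univ := by
        refine Finset.filter_true_of_mem (fun z _ => ?_)
        rw [depthB_two a b hab z z0]
        exact hz0
      rw [hall, hg]
    · have hnone : univ.filter (fun z : Box 2 s ρ => d ≤ depthB a b z) = ∅ := by
        refine Finset.filter_false_of_mem (fun z _ hz => hex ⟨z, hz⟩)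
      rw [hnone, Finset.sum_empty]
  rw [hnum]
  simp

theorem slack_two {s : Fin 2 → ℕ} {ρ : ℕ} (f : Box 2 s ρ → ℝ) :
    slackB f = QB 0 1 f + QB 1 0 f := by
  unfold slackB
  rw [Fin.sum_univ_two, Fin.sum_univ_two, Fin.sum_univ_two]
  have h01 : (0 : Fin 2) ≠ 1 := by decide
  have h10 : (1 : Fin 2) ≠ 0 := by decide
  rw [if_neg (not_not.mpr rfl), if_pos h01, if_pos h10, if_neg (not_not.mpr rfl),
    penB_two 0 1 h01 _ (sum_centreB f), penB_two 1 0 h10 _ (sum_centreB f)]
  ring

/-- Under the slicing hypothesis the slack dominates the block Dirichlet forms of every pair of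
columns. -/
theorem slack_ge (h : SliceHyp) : ∀ n : ℕ, 2 ≤ n → ∀ (s : Fin n → ℕ) (ρ : ℕ) (b c : Fin n),
    b ≠ c → ∀ f : Box n s ρ → ℝ, QB b c f + QB c b f ≤ slackB f := by
  intro n hn
  induction n, hn using Nat.le_induction with
  | base =>
    intro s ρ b c hbc f
    rw [slack_two]
    fin_cases b <;> fin_cases c
    · exact absurd rfl hbc
    · exact le_of_eq rfl
    · exact le_of_eq (add_comm _ _)
    · exact absurd rfl hbc
  | succ n hn ih =>
    intro s ρ b c hbc f
    have hcard : ({b, c} : Finset (Fin (n + 1))).card < (univ : Finset (Fin (n + 1))).card := by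
      have h1 : ({b, c} : Finset (Fin (n + 1))).card ≤ 2 := Finset.card_le_two
      rw [Finset.card_univ, Fintype.card_fin]
      omega
    obtain ⟨a, -, ha⟩ := Finset.exists_mem_notMem_of_card_lt_card hcard
    have hab : b ≠ a := by
      intro e
      exact ha (by rw [e]; exact Finset.mem_insert_self _ _)
    have hac : c ≠ a := by
      intro e
      exact ha (by rw [e]; exact Finset.mem_insert_of_mem (Finset.mem_singleton_self _))
    obtain ⟨b', rfl⟩ := Fin.exists_succAbove_eq hab
    obtain ⟨c', rfl⟩ := Fin.exists_succAbove_eq hac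
    have hbc' : b' ≠ c' := fun e => hbc (by rw [e])
    rw [QB_slices a b' c' f, QB_slices a c' b' f, ← Finset.sum_add_distrib]
    refine le_trans (Finset.sum_le_sum (fun j _ => ?_)) (h n hn s ρ a f)
    exact ih (fun k => s (a.succAbove k)) (ρ - j) b' c' hbc' (sliceFun a j f)

/-- The surplus inequality on box-slice classes with constant `1 - 2 / (n (n - 1))`, from the
slicing hypothesis. -/
theorem sur_box (h : SliceHyp) (n : ℕ) (s : Fin n → ℕ) (ρ : ℕ) (f : Box n s ρ → ℝ)
    (hf : ∑ z, f z = 0) :
    ∑ a : Fin n, ∑ b : Fin n, (if a ≠ b then penB a b f else 0)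
      ≤ (1 - 2 / ((n : ℝ) * (n - 1))) *
        ∑ a : Fin n, ∑ b : Fin n, (if a ≠ b then QB a b f else 0) := by
  by_cases hn : 2 ≤ n
  · have hslack : slackB f = ∑ a : Fin n, ∑ b : Fin n, (if a ≠ b then QB a b f else 0)
        - ∑ a : Fin n, ∑ b : Fin n, (if a ≠ b then penB a b f else 0) := by
      unfold slackB
      rw [centreB_of_sum_zero f hf, ← Finset.sum_sub_distrib]
      refine Finset.sum_congr rfl (fun a _ => ?_)
      rw [← Finset.sum_sub_distrib]
      refine Finset.sum_congr rfl (fun b _ => ?_)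
      by_cases hab : a ≠ b
      · rw [if_pos hab, if_pos hab, if_pos hab]
      · rw [if_neg hab, if_neg hab, if_neg hab, sub_zero]
    have hsum : ∑ b : Fin n, ∑ c : Fin n, (if b ≠ c then QB b c f + QB c b f else 0)
        ≤ ∑ b : Fin n, ∑ c : Fin n, (if b ≠ c then slackB f else 0) := by
      refine Finset.sum_le_sum (fun b _ => Finset.sum_le_sum (fun c _ => ?_))
      by_cases hbc : b ≠ c
      · rw [if_pos hbc, if_pos hbc]
        exact slack_ge h n hn s ρ b c hbc f
      · rw [if_neg hbc, if_neg hbc]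
    have hL : ∑ b : Fin n, ∑ c : Fin n, (if b ≠ c then QB b c f + QB c b f else 0)
        = 2 * ∑ a : Fin n, ∑ b : Fin n, (if a ≠ b then QB a b f else 0) := by
      have e1 : ∑ b : Fin n, ∑ c : Fin n, (if b ≠ c then QB b c f + QB c b f else 0)
          = ∑ b : Fin n, ∑ c : Fin n, (if b ≠ c then QB b c f else 0)
            + ∑ b : Fin n, ∑ c : Fin n, (if b ≠ c then QB c b f else 0) := by
        rw [← Finset.sum_add_distrib]
        refine Finset.sum_congr rfl (fun b _ => ?_)
        rw [← Finset.sum_add_distrib]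
        refine Finset.sum_congr rfl (fun c _ => ?_)
        by_cases hbc : b ≠ c
        · rw [if_pos hbc, if_pos hbc, if_pos hbc]
        · rw [if_neg hbc, if_neg hbc, if_neg hbc, add_zero]
      have e2 : ∑ b : Fin n, ∑ c : Fin n, (if b ≠ c then QB c b f else 0)
          = ∑ a : Fin n, ∑ b : Fin n, (if a ≠ b then QB a b f else 0) := by
        rw [Finset.sum_comm]
        refine Finset.sum_congr rfl (fun a _ => Finset.sum_congr rfl (fun b _ => ?_))
        by_cases hab : a ≠ b
        · rw [if_pos hab, if_pos (Ne.symm hab)]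
        · rw [if_neg hab, if_neg (fun e => hab (Ne.symm e))]
      rw [e1, e2]
      ring
    have hR : ∑ b : Fin n, ∑ c : Fin n, (if b ≠ c then slackB f else 0)
        = (n : ℝ) * ((n : ℝ) - 1) * slackB f := by
      rw [← Vale.Agent.H91.CT.count_ne n, Finset.sum_mul]
      refine Finset.sum_congr rfl (fun b _ => ?_)
      rw [Finset.sum_mul]
      refine Finset.sum_congr rfl (fun c _ => ?_)
      by_cases hbc : b ≠ c
      · rw [if_pos hbc, if_pos hbc, one_mul]
      · rw [if_neg hbc, if_neg hbc, zero_mul]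
    rw [hL, hR, hslack] at hsum
    have hn' : (2 : ℝ) ≤ n := by exact_mod_cast hn
    have hpos : (0 : ℝ) < (n : ℝ) * ((n : ℝ) - 1) := by nlinarith
    have e3 : (1 - 2 / ((n : ℝ) * ((n : ℝ) - 1))) *
        ∑ a : Fin n, ∑ b : Fin n, (if a ≠ b then QB a b f else 0)
        = ∑ a : Fin n, ∑ b : Fin n, (if a ≠ b then QB a b f else 0)
          - 2 * (∑ a : Fin n, ∑ b : Fin n, (if a ≠ b then QB a b f else 0))
            / ((n : ℝ) * ((n : ℝ) - 1)) := by
      field_simp
    rw [e3, le_sub_iff_add_le, ← le_sub_iff_add_le', div_le_iff₀ hpos]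
    linarith
  · have hs : Subsingleton (Fin n) := Fin.subsingleton_iff_le_one.2 (by omega)
    have e1 : ∑ a : Fin n, ∑ b : Fin n, (if a ≠ b then penB a b f else 0) = 0 :=
      Finset.sum_eq_zero (fun a _ => Finset.sum_eq_zero (fun b _ =>
        if_neg (not_not.mpr (Subsingleton.elim a b))))
    have e2 : ∑ a : Fin n, ∑ b : Fin n, (if a ≠ b then QB a b f else 0) = 0 :=
      Finset.sum_eq_zero (fun a _ => Finset.sum_eq_zero (fun b _ =>
        if_neg (not_not.mpr (Subsingleton.elim a b))))
    rw [e1, e2, mul_zero]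

end Vale.Agent.H14.CT
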