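import Vale.Agent.H14.CT.BoxFreeDefs
import Vale.Agent.H14.CT.BoxPool
import Vale.Agent.H14.CT.BoxRed

/-!
P328: the slice-free form (S0') implies the slicing hypothesis (SL1).

The block Dirichlet forms of the pairs not containing `a` are additive over the slices
(`QB_slices`), the penalties of these pairs are subadditive (`penB_pool`), and the restriction
of `f - E_a f` to a slice is the centred restriction of `f`.
-/

namespace Vale.Agent.H14.CT

open Finset Vale.Agent.H90

section generic

variable {n : ℕ} {s : Fin n → ℕ} {ρ : ℕ}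

theorem lineRel_eqv14 (a b : Fin n) : Equivalence (LineRel (s := s) (ρ := ρ) a b) where
  refl _ := fun _ _ _ => rfl
  symm h := fun k hka hkb => (h k hka hkb).symm
  trans h1 h2 := fun k hka hkb => (h1 k hka hkb).trans (h2 k hka hkb)

theorem sliceRel_eqv14 (a : Fin n) : Equivalence (SliceRel (s := s) (ρ := ρ) a) where
  refl _ := rfl
  symm h := h.symm
  trans h1 h2 := h1.trans h2

theorem avgRel_sub_const {Ω : Type*} [Fintype Ω] (R : Ω → Ω → Prop) [DecidableRel R]
    (hR : Equivalence R) (f : Ω → ℝ) (t : ℝ) (z : Ω) :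
    avgRel R (fun w => f w - t) z = avgRel R f z - t := by
  have h1 : (fun w => f w - t) = f - (fun _ => t) := rfl
  rw [h1, avgRel_sub, avgRel_eq_self hR (fun _ => t) (fun _ _ _ => rfl)]
  rfl

theorem QB_centreB (a b : Fin n) (f : Box n s ρ → ℝ) : QB a b (centreB f) = QB a b f := by
  unfold QB centreB
  refine Finset.sum_congr rfl (fun z _ => ?_)
  rw [avgRel_sub_const _ (lineRel_eqv14 a b)]
  ring

theorem centreB_sub_avg (a : Fin n) (f : Box n s ρ → ℝ) :
    (fun z => centreB f z - avgRel (SliceRel a) (centreB f) z)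
      = (fun z => f z - avgRel (SliceRel a) f z) := by
  funext z
  unfold centreB
  rw [avgRel_sub_const _ (sliceRel_eqv14 a)]
  ring

/-- Sum over the ordered pairs of distinct indices. -/
noncomputable def sumNe (G : Fin n → Fin n → ℝ) : ℝ :=
  ∑ b : Fin n, ∑ c : Fin n, (if b ≠ c then G b c else 0)

theorem sumNe_le (G H : Fin n → Fin n → ℝ) (h : ∀ b c, b ≠ c → G b c ≤ H b c) :
    sumNe G ≤ sumNe H := by
  unfold sumNe
  refine Finset.sum_le_sum (fun b _ => Finset.sum_le_sum (fun c _ => ?_))
  by_cases hbc : b ≠ c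
  · rw [if_pos hbc, if_pos hbc]
    exact h b c hbc
  · rw [if_neg hbc, if_neg hbc]

theorem sumNe_sub (G H : Fin n → Fin n → ℝ) :
    sumNe (fun b c => G b c - H b c) = sumNe G - sumNe H := by
  unfold sumNe
  rw [← Finset.sum_sub_distrib]
  refine Finset.sum_congr rfl (fun b _ => ?_)
  rw [← Finset.sum_sub_distrib]
  refine Finset.sum_congr rfl (fun c _ => ?_)
  by_cases hbc : b ≠ c
  · rw [if_pos hbc, if_pos hbc, if_pos hbc]
  · rw [if_neg hbc, if_neg hbc, if_neg hbc, sub_zero]

theorem sumNe_sum {ι : Type*} (S : Finset ι) (G : ι → Fin n → Fin n → ℝ) :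
    ∑ j ∈ S, sumNe (G j) = sumNe (fun b c => ∑ j ∈ S, G j b c) := by
  unfold sumNe
  rw [Finset.sum_comm]
  refine Finset.sum_congr rfl (fun b _ => ?_)
  rw [Finset.sum_comm]
  refine Finset.sum_congr rfl (fun c _ => ?_)
  by_cases hbc : b ≠ c
  · simp only [if_pos hbc]
  · simp only [if_neg hbc, Finset.sum_const_zero]

end generic

variable {n : ℕ} {s : Fin (n + 1) → ℕ} {ρ : ℕ}

/-- The ordered pairs of distinct columns different from `a`. -/
theorem sum_ne_succAbove (a : Fin (n + 1)) (G : Fin (n + 1) → Fin (n + 1) → ℝ) :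
    ∑ x : Fin (n + 1), ∑ y : Fin (n + 1), (if x ≠ y ∧ x ≠ a ∧ y ≠ a then G x y else 0)
      = sumNe (fun b c : Fin n => G (a.succAbove b) (a.succAbove c)) := by
  unfold sumNe
  rw [Fin.sum_univ_succAbove _ a]
  have h0 : ∑ y : Fin (n + 1), (if a ≠ y ∧ a ≠ a ∧ y ≠ a then G a y else 0) = 0 :=
    Finset.sum_eq_zero (fun y _ => if_neg (fun hh => hh.2.1 rfl))
  rw [h0, zero_add]
  refine Finset.sum_congr rfl (fun b _ => ?_)
  rw [Fin.sum_univ_succAbove _ a]
  rw [if_neg (fun hh => hh.2.2 rfl), zero_add]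
  refine Finset.sum_congr rfl (fun c _ => ?_)
  by_cases hbc : b ≠ c
  · rw [if_pos hbc, if_pos]
    exact ⟨fun e => hbc (Fin.succAbove_right_injective e), Fin.succAbove_ne a b,
      Fin.succAbove_ne a c⟩
  · rw [if_neg hbc, if_neg]
    intro hh
    exact hh.1 (by rw [not_not.1 hbc])

/-- Splitting the ordered pairs of distinct columns into those containing `a` and the others. -/
theorem sum_ne_split (a : Fin (n + 1)) (G : Fin (n + 1) → Fin (n + 1) → ℝ) :
    ∑ x : Fin (n + 1), ∑ y : Fin (n + 1), (if x ≠ y then G x y else 0)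
      = ∑ x : Fin (n + 1), ∑ y : Fin (n + 1), (if x ≠ y ∧ (x = a ∨ y = a) then G x y else 0)
        + sumNe (fun b c : Fin n => G (a.succAbove b) (a.succAbove c)) := by
  rw [← sum_ne_succAbove a G, ← Finset.sum_add_distrib]
  refine Finset.sum_congr rfl (fun x _ => ?_)
  rw [← Finset.sum_add_distrib]
  refine Finset.sum_congr rfl (fun y _ => ?_)
  by_cases hxy : x ≠ y
  · by_cases hx : x = a
    · rw [if_pos hxy, if_pos ⟨hxy, Or.inl hx⟩, if_neg (fun hh => hh.2.1 hx), add_zero]
    · by_cases hy : y = a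
      · rw [if_pos hxy, if_pos ⟨hxy, Or.inr hy⟩, if_neg (fun hh => hh.2.2 hy), add_zero]
      · rw [if_pos hxy, if_neg (fun hh => hh.2.elim hx hy), if_pos ⟨hxy, hx, hy⟩, zero_add]
  · rw [if_neg hxy, if_neg (fun hh => hxy hh.1), if_neg (fun hh => hxy hh.1), add_zero]

/-- The restriction of `f - E_a f` to a slice is the centred restriction of `f`. -/
theorem sliceFun_sub_avg (a : Fin (n + 1)) (j : ℕ) (hj : j ≤ s a) (hρ : j ≤ ρ)
    (f : Box (n + 1) s ρ → ℝ) :
    sliceFun a j (fun z => f z - avgRel (SliceRel a) f z) = centreB (sliceFun a j f) := by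
  funext w
  rw [sliceFun_eq a j hj hρ]
  unfold centreB
  rw [sliceFun_eq a j hj hρ]
  have e := Vale.Agent.H91.CT.TransferAux.avgRel_embed (insB a j hj hρ) (insB_inj a j hj hρ)
    (SliceRel a) (fun _ _ => True)
    (fun w w' => by
      unfold SliceRel
      rw [insB_same, insB_same]
      exact ⟨fun _ => rfl, fun _ => trivial⟩)
    (fun w z hz => by
      unfold SliceRel at hz
      rw [insB_same] at hz
      exact exists_insB a j hj hρ z hz.symm) f w
  rw [e, Vale.Agent.H91.CT.TransferAux.avgRel_true]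
  have e2 : (fun w' => f (insB a j hj hρ w')) = sliceFun a j f := by
    funext w'
    rw [sliceFun_eq a j hj hρ]
  rw [e2]

/-- The slice-free form implies the slicing hypothesis. -/
theorem sliceHyp_of_sliceFreeHyp (h : SliceFreeHyp) : SliceHyp := by
  intro n hn s ρ a f
  have key := h n hn s ρ a (centreB f) (sum_centreB f)
  rw [centreB_sub_avg a f, sum_ne_succAbove a] at key
  simp only [QB_centreB] at key
  -- the slack of the class
  have hslack : slackB f
      = ∑ x : Fin (n + 1), ∑ y : Fin (n + 1), (if x ≠ y then QB x y f else 0)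
        - ∑ x : Fin (n + 1), ∑ y : Fin (n + 1), (if x ≠ y then penB x y (centreB f) else 0) := by
    unfold slackB
    rw [← Finset.sum_sub_distrib]
    refine Finset.sum_congr rfl (fun x _ => ?_)
    rw [← Finset.sum_sub_distrib]
    refine Finset.sum_congr rfl (fun y _ => ?_)
    by_cases hxy : x ≠ y
    · rw [if_pos hxy, if_pos hxy, if_pos hxy]
    · rw [if_neg hxy, if_neg hxy, if_neg hxy, sub_zero]
  rw [sum_ne_split a (fun x y => QB x y f)] at hslack
  -- the slacks of the slices
  have hsl : ∀ j ∈ Finset.range (min (s a) ρ + 1), slackB (sliceFun a j f)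
      = sumNe (fun b c : Fin n => QB b c (sliceFun a j f))
        - sumNe (fun b c : Fin n => penB b c (centreB (sliceFun a j f))) := by
    intro j _
    rw [← sumNe_sub]
    rfl
  rw [Finset.sum_congr rfl hsl, Finset.sum_sub_distrib, sumNe_sum, sumNe_sum]
  have hQ : sumNe (fun b c : Fin n =>
      ∑ j ∈ Finset.range (min (s a) ρ + 1), QB b c (sliceFun a j f))
      = sumNe (fun b c : Fin n => QB (a.succAbove b) (a.succAbove c) f) := by
    unfold sumNe
    refine Finset.sum_congr rfl (fun b _ => Finset.sum_congr rfl (fun c _ => ?_))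
    beta_reduce
    rw [QB_slices a b c f]
  have hP : sumNe (fun b c : Fin n =>
      penB (a.succAbove b) (a.succAbove c) (fun z => f z - avgRel (SliceRel a) f z))
      ≤ sumNe (fun b c : Fin n =>
        ∑ j ∈ Finset.range (min (s a) ρ + 1), penB b c (centreB (sliceFun a j f))) := by
    refine sumNe_le _ _ (fun b c hbc => ?_)
    refine le_trans (penB_pool a b c hbc _) (le_of_eq ?_)
    refine Finset.sum_congr rfl (fun j hj => ?_)
    rw [Finset.mem_range] at hj
    rw [sliceFun_sub_avg a j (by omega) (by omega) f]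
  rw [hQ, hslack]
  linarith

end Vale.Agent.H14.CT
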