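import Vale.Agent.H14.CT.Base3Pair
import Vale.Agent.H14.CT.Base3Gap
import Vale.Agent.H14.CT.BoxFree

/-!
P328, base case of three columns: on every box-slice class with three columns and for every
`f` of zero sum, the sum of the closed-form penalties over the ordered pairs of columns is at
most `35/38` times the sum of the block Dirichlet forms.  Consequently the slack of every `f`
is at least `2 (3/38)` times the sum of squares of the centred `f`.
-/

namespace Vale.Agent.H14.CT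

open Finset Vale.Agent.H90

theorem QB_pyth {n : ℕ} {s : Fin n → ℕ} {ρ : ℕ} (a b : Fin n) (f : Box n s ρ → ℝ) :
    QB a b f = ∑ z, f z ^ 2 - ∑ z, avgRel (LineRel a b) f z ^ 2 := by
  have h := avgRel_dot (lineRel_equiv (s := s) (ρ := ρ) a b) f (avgRel (LineRel a b) f)
  rw [avgRel_idem (lineRel_equiv a b)] at h
  unfold dot at h
  have hS : ∑ z, f z * avgRel (LineRel a b) f z = ∑ z, avgRel (LineRel a b) f z ^ 2 := by
    rw [h]
    exact Finset.sum_congr rfl (fun z _ => (pow_two _).symm)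
  unfold QB
  have e : ∀ z ∈ (univ : Finset (Box n s ρ)), (f z - avgRel (LineRel a b) f z) ^ 2
      = f z ^ 2 - 2 * (f z * avgRel (LineRel a b) f z) + avgRel (LineRel a b) f z ^ 2 := by
    intro z _
    ring
  rw [Finset.sum_congr rfl e, Finset.sum_add_distrib, Finset.sum_sub_distrib, ← Finset.mul_sum,
    hS]
  ring

theorem sum_ne_three (G : Fin 3 → Fin 3 → ℝ) :
    ∑ a : Fin 3, ∑ b : Fin 3, (if a ≠ b then G a b else 0)
      = G 0 1 + G 0 2 + G 1 0 + G 1 2 + G 2 0 + G 2 1 := by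
  simp only [Fin.sum_univ_three]
  have h01 : (0 : Fin 3) ≠ 1 := by decide
  have h02 : (0 : Fin 3) ≠ 2 := by decide
  have h12 : (1 : Fin 3) ≠ 2 := by decide
  rw [if_neg (not_not.mpr rfl), if_pos h01, if_pos h02, if_pos h01.symm,
    if_neg (not_not.mpr rfl), if_pos h12, if_pos h02.symm, if_pos h12.symm,
    if_neg (not_not.mpr rfl)]
  ring

/-- The base case: the surplus inequality with constant `35/38` on three-column classes. -/
theorem base3_box (s : Fin 3 → ℕ) (ρ : ℕ) (f : Box 3 s ρ → ℝ) (hf : ∑ z, f z = 0) :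
    ∑ a : Fin 3, ∑ b : Fin 3, (if a ≠ b then penB a b f else 0)
      ≤ (35 / 38) * ∑ a : Fin 3, ∑ b : Fin 3, (if a ≠ b then QB a b f else 0) := by
  have hgap := box_gap s ρ f hf
  rw [sum_ne_three] at hgap
  rw [sum_ne_three, sum_ne_three]
  have h01 : (0 : Fin 3) ≠ 1 := by decide
  have h02 : (0 : Fin 3) ≠ 2 := by decide
  have h12 : (1 : Fin 3) ≠ 2 := by decide
  have p01 := b3_pair s ρ 0 1 2 h01 h02 h12 f hf
  have p10 := b3_pair s ρ 1 0 2 h01.symm h12 h02 f hf
  have p02 := b3_pair s ρ 0 2 1 h02 h01 h12.symm f hf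
  have p20 := b3_pair s ρ 2 0 1 h02.symm h12.symm h01 f hf
  have p12 := b3_pair s ρ 1 2 0 h12 h01.symm h02.symm f hf
  have p21 := b3_pair s ρ 2 1 0 h12.symm h02.symm h01.symm f hf
  rw [QB_pyth 0 1, QB_pyth 0 2, QB_pyth 1 0, QB_pyth 1 2, QB_pyth 2 0, QB_pyth 2 1] at hgap ⊢
  have y01 : 0 ≤ ∑ z, avgRel (LineRel (0 : Fin 3) 1) f z ^ 2 :=
    Finset.sum_nonneg (fun z _ => sq_nonneg _)
  have y10 : 0 ≤ ∑ z, avgRel (LineRel (1 : Fin 3) 0) f z ^ 2 :=
    Finset.sum_nonneg (fun z _ => sq_nonneg _)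
  have y02 : 0 ≤ ∑ z, avgRel (LineRel (0 : Fin 3) 2) f z ^ 2 :=
    Finset.sum_nonneg (fun z _ => sq_nonneg _)
  have y20 : 0 ≤ ∑ z, avgRel (LineRel (2 : Fin 3) 0) f z ^ 2 :=
    Finset.sum_nonneg (fun z _ => sq_nonneg _)
  have y12 : 0 ≤ ∑ z, avgRel (LineRel (1 : Fin 3) 2) f z ^ 2 :=
    Finset.sum_nonneg (fun z _ => sq_nonneg _)
  have y21 : 0 ≤ ∑ z, avgRel (LineRel (2 : Fin 3) 1) f z ^ 2 :=
    Finset.sum_nonneg (fun z _ => sq_nonneg _)
  have q01 : 0 ≤ QB (0 : Fin 3) 1 f := Finset.sum_nonneg (fun z _ => sq_nonneg _)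
  have q10 : 0 ≤ QB (1 : Fin 3) 0 f := Finset.sum_nonneg (fun z _ => sq_nonneg _)
  have q02 : 0 ≤ QB (0 : Fin 3) 2 f := Finset.sum_nonneg (fun z _ => sq_nonneg _)
  have q20 : 0 ≤ QB (2 : Fin 3) 0 f := Finset.sum_nonneg (fun z _ => sq_nonneg _)
  have q12 : 0 ≤ QB (1 : Fin 3) 2 f := Finset.sum_nonneg (fun z _ => sq_nonneg _)
  have q21 : 0 ≤ QB (2 : Fin 3) 1 f := Finset.sum_nonneg (fun z _ => sq_nonneg _)
  rw [QB_pyth] at q01 q10 q02 q20 q12 q21
  have hN : ∀ a b k : Fin 3, ¬ b3C s ρ a b k → b3mu s ρ a b k = 8 / 19 :=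
    fun a b k h => if_neg h
  have hhalf : ∀ a b k : Fin 3, b3mu s ρ a b k ≤ 1 / 2 := by
    intro a b k
    unfold b3mu
    split_ifs <;> norm_num
  have u01 := mul_le_mul_of_nonneg_right (hhalf 0 1 2) y01
  have u10 := mul_le_mul_of_nonneg_right (hhalf 1 0 2) y10
  have u02 := mul_le_mul_of_nonneg_right (hhalf 0 2 1) y02
  have u20 := mul_le_mul_of_nonneg_right (hhalf 2 0 1) y20
  have u12 := mul_le_mul_of_nonneg_right (hhalf 1 2 0) y12
  have u21 := mul_le_mul_of_nonneg_right (hhalf 2 1 0) y21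
  by_cases c01 : b3C s ρ 0 1 2
  · have n02 : ¬ b3C s ρ 0 2 1 := by unfold b3C at c01 ⊢; omega
    have n20 : ¬ b3C s ρ 2 0 1 := by unfold b3C at c01 ⊢; omega
    have n12 : ¬ b3C s ρ 1 2 0 := by unfold b3C at c01 ⊢; omega
    have n21 : ¬ b3C s ρ 2 1 0 := by unfold b3C at c01 ⊢; omega
    rw [hN _ _ _ n02] at p02
    rw [hN _ _ _ n20] at p20
    rw [hN _ _ _ n12] at p12
    rw [hN _ _ _ n21] at p21
    linarith
  · have n10 : ¬ b3C s ρ 1 0 2 := by unfold b3C at c01 ⊢; omega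
    by_cases c02 : b3C s ρ 0 2 1
    · have n12 : ¬ b3C s ρ 1 2 0 := by unfold b3C at c02 ⊢; omega
      have n21 : ¬ b3C s ρ 2 1 0 := by unfold b3C at c02 ⊢; omega
      rw [hN _ _ _ c01] at p01
      rw [hN _ _ _ n10] at p10
      rw [hN _ _ _ n12] at p12
      rw [hN _ _ _ n21] at p21
      linarith
    · have n20 : ¬ b3C s ρ 2 0 1 := by unfold b3C at c02 ⊢; omega
      rw [hN _ _ _ c01] at p01
      rw [hN _ _ _ n10] at p10
      rw [hN _ _ _ c02] at p02
      rw [hN _ _ _ n20] at p20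
      linarith

/-- The base of the induction on the number of columns: on three-column classes the slack is at
least `2 (3/38)` times the sum of squares of the centred function. -/
theorem base3_slack (s : Fin 3 → ℕ) (ρ : ℕ) (f : Box 3 s ρ → ℝ) :
    2 * (3 / 38) * ∑ z, centreB f z ^ 2 ≤ slackB f := by
  have h1 := base3_box s ρ (centreB f) (sum_centreB f)
  have h2 := box_gap s ρ (centreB f) (sum_centreB f)
  have hslack : slackB f
      = ∑ a : Fin 3, ∑ b : Fin 3, (if a ≠ b then QB a b (centreB f) else 0)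
        - ∑ a : Fin 3, ∑ b : Fin 3, (if a ≠ b then penB a b (centreB f) else 0) := by
    unfold slackB
    rw [← Finset.sum_sub_distrib]
    refine Finset.sum_congr rfl (fun a _ => ?_)
    rw [← Finset.sum_sub_distrib]
    refine Finset.sum_congr rfl (fun b _ => ?_)
    by_cases hab : a ≠ b
    · rw [if_pos hab, if_pos hab, if_pos hab, QB_centreB]
    · rw [if_neg hab, if_neg hab, if_neg hab, sub_zero]
  rw [hslack]
  linarith

end Vale.Agent.H14.CT
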