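import Vale.Agent.H14.CT.Base3Hardy
import Vale.Agent.H91.CT.Sur2

/-!
P328, base case of three columns: the bound of the closed-form penalty of one pair by the
squared norm of the line averages, in the abstract setting of `Sur2Aux` (a finite set `Ω`, an
equivalence relation `R` (lines), a level `T` and a depth `D` such that on every line of depth
`D` the level runs through `0, …, D` exactly once).

If all depths lie in `[d0, Dm]`, the numbers `ν t = N t - N (t + 1)` of lines of depth `t`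
(`N d` = number of points of level `d`) are positive on `[d0, Dm]` and nondecreasing on
`[d0, Dm - 1]`, and one of the three top conditions of `Base3Hardy` holds with constant `≤ μ`,
then for `f` of zero sum the penalty is at most `μ ∑ (avgRel R f) ^ 2`.
-/

namespace Vale.Agent.H14.CT

open Finset Vale.Agent.H90 Vale.Agent.H91.CT Vale.Agent.H91.CT.Sur2Aux

section abs

variable {Ω : Type*} [Fintype Ω] [DecidableEq Ω] (R : Ω → Ω → Prop) [DecidableRel R]
  (T D : Ω → ℕ)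

theorem b3_Gam_low (f : Ω → ℝ) (hf : ∑ X, f X = 0) (d0 : ℕ) (h : ∀ X, d0 ≤ D X) (d : ℕ)
    (hd : d ≤ d0) : Gam D f d = 0 := by
  unfold Gam
  rw [Finset.filter_true_of_mem (fun X _ => le_trans hd (h X)), hf]

theorem b3_Gam_high (f : Ω → ℝ) (Dm : ℕ) (h : ∀ X, D X ≤ Dm) (d : ℕ) (hd : Dm < d) :
    Gam D f d = 0 := by
  unfold Gam
  rw [Finset.filter_false_of_mem (fun X _ hX => by have := h X; omega), Finset.sum_empty]

theorem b3_Nn_high (Dm : ℕ) (hTD : ∀ X, T X ≤ D X) (h : ∀ X, D X ≤ Dm) (d : ℕ) (hd : Dm < d) :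
    Nn T d = 0 := by
  unfold Nn
  rw [Finset.filter_false_of_mem (fun X _ hX => by have := h X; have := hTD X; omega),
    Finset.card_empty, Nat.cast_zero]

theorem b3_Gam_diff (f : Ω → ℝ) (t : ℕ) :
    Gam D f t - Gam D f (t + 1) = ∑ X ∈ univ.filter (fun X => D X = t), f X := by
  unfold Gam
  rw [Finset.sum_filter, Finset.sum_filter, Finset.sum_filter, ← Finset.sum_sub_distrib]
  refine Finset.sum_congr rfl (fun X _ => ?_)
  by_cases h1 : D X = t
  · rw [if_pos (le_of_eq h1.symm), if_neg (by omega), if_pos h1, sub_zero]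
  · by_cases h2 : t ≤ D X
    · rw [if_pos h2, if_pos (by omega), if_neg h1, sub_self]
    · rw [if_neg h2, if_neg (by omega), if_neg h1, sub_self]

theorem b3_card_depth (hR : Equivalence R) (hD : ∀ X Y, R X Y → D X = D Y)
    (hCL : ∀ (X : Ω) (G : ℕ → ℝ),
      ∑ Y ∈ univ.filter (fun Y => R X Y), G (T Y) = ∑ s ∈ range (D X + 1), G s) (t : ℕ) :
    ((univ.filter (fun X => D X = t)).card : ℝ) = ((t : ℝ) + 1) * (Nn T t - Nn T (t + 1)) := by
  rw [Nn_eq R T D hR hD hCL t, Nn_eq R T D hR hD hCL (t + 1), ← Finset.sum_sub_distrib,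
    Finset.mul_sum, Finset.card_filter]
  push_cast
  refine Finset.sum_congr rfl (fun X _ => ?_)
  have ht : (0 : ℝ) < (t : ℝ) + 1 := by positivity
  by_cases h1 : D X = t
  · rw [if_pos h1, if_pos (le_of_eq h1.symm), if_neg (by omega), h1]
    field_simp
    ring
  · by_cases h2 : t ≤ D X
    · rw [if_neg h1, if_pos h2, if_pos (by omega), sub_self, mul_zero]
    · rw [if_neg h1, if_neg h2, if_neg (by omega), sub_self, mul_zero]

theorem b3_sum_depth_avg (hR : Equivalence R) (hD : ∀ X Y, R X Y → D X = D Y) (f : Ω → ℝ)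
    (t : ℕ) :
    ∑ X ∈ univ.filter (fun X => D X = t), f X
      = ∑ X ∈ univ.filter (fun X => D X = t), avgRel R f X := by
  have h := avgRel_dot hR f (fun X => if D X = t then (1 : ℝ) else 0)
  rw [avgRel_eq_self hR _ (fun X Y hXY => by rw [hD X Y hXY])] at h
  unfold dot at h
  rw [Finset.sum_filter, Finset.sum_filter]
  simp only [mul_ite, mul_one, mul_zero] at h
  exact h

/-- The bound of the penalty of one pair. -/
theorem b3_pair_bound (hR : Equivalence R) (hD : ∀ X Y, R X Y → D X = D Y)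
    (hCL : ∀ (X : Ω) (G : ℕ → ℝ),
      ∑ Y ∈ univ.filter (fun Y => R X Y), G (T Y) = ∑ s ∈ range (D X + 1), G s)
    (hTD : ∀ X, T X ≤ D X) (f : Ω → ℝ) (hf : ∑ X, f X = 0) (M d0 Dm : ℕ) (hDm : Dm ≤ M)
    (hdep : ∀ X, d0 ≤ D X ∧ D X ≤ Dm)
    (hnu : ∀ t, d0 ≤ t → t ≤ Dm → 0 < Nn T t - Nn T (t + 1))
    (hmono : ∀ t, d0 < t → t < Dm → Nn T (t - 1) - Nn T t ≤ Nn T t - Nn T (t + 1))
    (μ : ℝ) (hμ : 0 ≤ μ)
    (hcase : d0 < Dm →
      ((Nn T (Dm - 1) - Nn T Dm ≤ Nn T Dm ∧ 1 / 3 ≤ μ) ∨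
       (Nn T Dm = 1 ∧ Nn T (Dm - 1) = 3 ∧ 2 ≤ Dm ∧ 8 / 19 ≤ μ) ∨
       (Nn T Dm = 1 ∧ Nn T (Dm - 1) = 3 ∧ 1 / 2 ≤ μ))) :
    ∑ d ∈ Finset.Icc 1 M, Gam D f d ^ 2 / ((d : ℝ) * (d + 1) * Nn T d)
      ≤ μ * ∑ X, avgRel R f X ^ 2 := by
  have hS0 : 0 ≤ ∑ X, avgRel R f X ^ 2 := Finset.sum_nonneg (fun X _ => sq_nonneg _)
  by_cases hlt : d0 < Dm
  · -- restrict the sum to the depths between `d0 + 1` and `Dm`
    have hsub : Finset.Icc (d0 + 1) Dm ⊆ Finset.Icc 1 M := by
      intro d hd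
      rw [Finset.mem_Icc] at hd ⊢
      omega
    have hrest : ∑ d ∈ Finset.Icc 1 M, Gam D f d ^ 2 / ((d : ℝ) * (d + 1) * Nn T d)
        = ∑ d ∈ Finset.Icc (d0 + 1) Dm, Gam D f d ^ 2 / ((d : ℝ) * (d + 1) * Nn T d) := by
      symm
      refine Finset.sum_subset hsub (fun d hd hnd => ?_)
      rw [Finset.mem_Icc] at hd hnd
      by_cases h1 : d ≤ d0
      · rw [b3_Gam_low D f hf d0 (fun X => (hdep X).1) d h1]
        simp
      · rw [b3_Gam_high D f Dm (fun X => (hdep X).2) d (by omega)]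
        simp
    rw [hrest]
    have hN : Nn T (Dm + 1) = 0 := b3_Nn_high T D Dm hTD (fun X => (hdep X).2) (Dm + 1) (by omega)
    have hv0 : Gam D f d0 = 0 := b3_Gam_low D f hf d0 (fun X => (hdep X).1) d0 le_rfl
    have hvD : Gam D f (Dm + 1) = 0 :=
      b3_Gam_high D f Dm (fun X => (hdep X).2) (Dm + 1) (by omega)
    -- the right side of the Hardy inequality is at most the sum of squares
    have hright : ∑ t ∈ Finset.Icc d0 Dm,
        (Gam D f t - Gam D f (t + 1)) ^ 2 / (((t : ℝ) + 1) * (Nn T t - Nn T (t + 1)))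
        ≤ ∑ X, avgRel R f X ^ 2 := by
      have hstep : ∀ t ∈ Finset.Icc d0 Dm,
          (Gam D f t - Gam D f (t + 1)) ^ 2 / (((t : ℝ) + 1) * (Nn T t - Nn T (t + 1)))
          ≤ ∑ X ∈ univ.filter (fun X => D X = t), avgRel R f X ^ 2 := by
        intro t ht
        rw [Finset.mem_Icc] at ht
        have hpos : (0 : ℝ) < ((t : ℝ) + 1) * (Nn T t - Nn T (t + 1)) :=
          mul_pos (by positivity) (hnu t ht.1 ht.2)
        rw [div_le_iff₀ hpos, b3_Gam_diff, b3_sum_depth_avg R D hR hD f t,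
          ← b3_card_depth R T D hR hD hCL t, mul_comm]
        exact sq_sum_le_card_mul_sum_sq
      refine le_trans (Finset.sum_le_sum hstep) ?_
      have hmaps : ∀ X ∈ (univ : Finset Ω), D X ∈ Finset.Icc d0 Dm :=
        fun X _ => Finset.mem_Icc.2 (hdep X)
      rw [Finset.sum_fiberwise_of_maps_to hmaps]
    rcases hcase hlt with ⟨htop, hμ1⟩ | ⟨hD1, hD3, hD2, hμ1⟩ | ⟨hD1, hD3, hμ1⟩
    · have h1 := hardy_A d0 Dm hlt (Nn T) (Gam D f) hN hnu hmono htop hv0 hvD
      nlinarith [h1, hright, hS0]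
    · have h1 := hardy_B d0 Dm hlt (Nn T) (Gam D f) hN hnu hmono hD1 hD3 hD2 hv0 hvD
      nlinarith [h1, hright, hS0]
    · have h1 := hardy_C d0 Dm hlt (Nn T) (Gam D f) hN hnu hmono hD1 hD3 hv0 hvD
      nlinarith [h1, hright, hS0]
  · have hzero : ∑ d ∈ Finset.Icc 1 M, Gam D f d ^ 2 / ((d : ℝ) * (d + 1) * Nn T d) = 0 := by
      refine Finset.sum_eq_zero (fun d hd => ?_)
      by_cases h1 : d ≤ d0
      · rw [b3_Gam_low D f hf d0 (fun X => (hdep X).1) d h1]
        simp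
      · rw [b3_Gam_high D f Dm (fun X => (hdep X).2) d (by omega)]
        simp
    rw [hzero]
    exact mul_nonneg hμ hS0

end abs

end Vale.Agent.H14.CT
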