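import Vale.Agent.H14.CT.BoxDefs

/-!
P328, base case of three columns, row B3-C: the level counts of a box-slice class with three
columns.

For distinct columns `a, b, k` of `Box 3 s ρ` and `d ≤ min (s a) (s b)`, the map
`z ↦ z a + z b` is a bijection from `{z : levelB a b z = d}` onto the integer interval
`[max wlo d, min whi (s a + s b - d)]`, `wlo = ρ - min ρ (s k)`, `whi = min ρ (s a + s b)`.

Paper proof.  Into: `z a + z b = ρ - z k` with `z k ≤ min ρ (s k)`; `z a + z b ≤ s a + s b`;
`d = min (z a) (s b - z b) ≤ z a ≤ z a + z b` and `d ≤ s b - z b ≤ s a + s b - (z a + z b)`.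
Injective: `z k = ρ - w`, and `z a = d + (w - s b)` (truncated subtraction) because
`min (z a) (s b - z b) = z a` if `w ≤ s b` and `= z a - (w - s b)` otherwise.
Onto: for `w` in the interval put `z k = ρ - w`, `z a = d + (w - s b)`, `z b = w - z a`.
-/

namespace Vale.Agent.H14.CT

open Finset

/-- Every index of `Fin 3` is one of three distinct indices. -/
theorem b3c_cases (a b k : Fin 3) (hab : a ≠ b) (hak : a ≠ k) (hbk : b ≠ k) (i : Fin 3) :
    i = a ∨ i = b ∨ i = k := by
  have h1 := Fin.val_ne_of_ne hab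
  have h2 := Fin.val_ne_of_ne hak
  have h3 := Fin.val_ne_of_ne hbk
  have ha := a.isLt
  have hb := b.isLt
  have hk := k.isLt
  have hi := i.isLt
  by_cases e1 : i = a
  · exact Or.inl e1
  · by_cases e2 : i = b
    · exact Or.inr (Or.inl e2)
    · refine Or.inr (Or.inr ?_)
      have h4 := Fin.val_ne_of_ne e1
      have h5 := Fin.val_ne_of_ne e2
      apply Fin.ext
      omega

/-- The sum over `Fin 3` in terms of three distinct indices. -/
theorem sum_fin_three (a b k : Fin 3) (hab : a ≠ b) (hak : a ≠ k) (hbk : b ≠ k) (g : Fin 3 → ℕ) :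
    ∑ i, g i = g a + g b + g k := by
  have huniv : (univ : Finset (Fin 3)) = {a, b, k} := by
    ext i
    simp only [mem_univ, mem_insert, mem_singleton, true_iff]
    exact b3c_cases a b k hab hak hbk i
  rw [huniv, Finset.sum_insert, Finset.sum_insert, Finset.sum_singleton]
  · ring
  · simp only [mem_singleton]
    exact hbk
  · simp only [mem_insert, mem_singleton, not_or]
    exact ⟨hab, hak⟩

/-- The vector with prescribed values at three distinct indices. -/
def b3c_vec (a b : Fin 3) (x y t : ℕ) : Fin 3 → ℕ :=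
  fun i => if i = a then x else if i = b then y else t

theorem b3c_vec_a (a b : Fin 3) (x y t : ℕ) : b3c_vec a b x y t a = x := by
  unfold b3c_vec
  rw [if_pos rfl]

theorem b3c_vec_b (a b : Fin 3) (hab : a ≠ b) (x y t : ℕ) : b3c_vec a b x y t b = y := by
  unfold b3c_vec
  rw [if_neg (fun e => hab e.symm), if_pos rfl]

theorem b3c_vec_k (a b k : Fin 3) (hak : a ≠ k) (hbk : b ≠ k) (x y t : ℕ) :
    b3c_vec a b x y t k = t := by
  unfold b3c_vec
  rw [if_neg (fun e => hak e.symm), if_neg (fun e => hbk e.symm)]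

/-- Arithmetic of the image: the pair sum of a point of level `d` lies in the interval. -/
theorem b3c_into (A B K ρ d x y t : ℕ) (hx : x ≤ A) (hy : y ≤ B) (ht : t ≤ K)
    (hsum : x + y + t = ρ) (hlev : min x (B - y) = d) :
    max (ρ - min ρ K) d ≤ x + y ∧ x + y ≤ min (min ρ (A + B)) (A + B - d) := by
  have hd1 : d ≤ x := by rw [← hlev]; exact min_le_left _ _
  have hd2 : d ≤ B - y := by rw [← hlev]; exact min_le_right _ _
  refine ⟨max_le ?_ ?_, le_min (le_min ?_ ?_) ?_⟩
  · have : min ρ K ≥ t := le_min (by omega) ht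
    omega
  · omega
  · omega
  · omega
  · omega

/-- Arithmetic of injectivity: the level and the pair sum determine the first entry. -/
theorem b3c_inj (B d x y : ℕ) (hy : y ≤ B) (hlev : min x (B - y) = d) :
    x = d + (x + y - B) := by
  by_cases h : x ≤ B - y
  · rw [min_eq_left h] at hlev
    omega
  · rw [min_eq_right (by omega)] at hlev
    omega

/-- Arithmetic of surjectivity. -/
theorem b3c_sur (A B K ρ d w : ℕ) (hdA : d ≤ A) (hdB : d ≤ B)
    (hlo1 : ρ - min ρ K ≤ w) (hlo2 : d ≤ w) (hhi1 : w ≤ ρ) (hhi3 : w ≤ A + B - d) :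
    d + (w - B) ≤ A ∧ w - (d + (w - B)) ≤ B ∧ ρ - w ≤ K ∧
      d + (w - B) + (w - (d + (w - B))) + (ρ - w) = ρ ∧
      min (d + (w - B)) (B - (w - (d + (w - B)))) = d ∧
      d + (w - B) + (w - (d + (w - B))) = w := by
  have hK : ρ - w ≤ K := by
    by_cases h : ρ ≤ K
    · omega
    · rw [min_eq_right (by omega)] at hlo1
      omega
  by_cases h : w ≤ B
  · have e : w - B = 0 := by omega
    rw [e]
    refine ⟨by omega, by omega, hK, by omega, ?_, by omega⟩
    rw [min_eq_left (by omega)]
    omega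
  · refine ⟨by omega, by omega, hK, by omega, ?_, by omega⟩
    rw [min_eq_right (by omega)]
    omega

/-- The number of points of level `d` in a class with three columns. -/
theorem card_level (s : Fin 3 → ℕ) (ρ : ℕ) (a b k : Fin 3) (hab : a ≠ b) (hak : a ≠ k)
    (hbk : b ≠ k) (d : ℕ) (hd : d ≤ min (s a) (s b)) :
    (univ.filter (fun z : Box 3 s ρ => levelB a b z = d)).card
      = (min (min ρ (s a + s b)) (s a + s b - d) + 1) - max (ρ - min ρ (s k)) d := by
  classical
  rw [← Nat.card_Icc]
  refine Finset.card_bij (fun z _ => z.1 a + z.1 b) ?_ ?_ ?_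
  · intro z hz
    have hlev : min (z.1 a) (s b - z.1 b) = d := (mem_filter.1 hz).2
    have hsum := sum_fin_three a b k hab hak hbk z.1
    rw [z.2.2] at hsum
    rw [mem_Icc]
    exact b3c_into (s a) (s b) (s k) ρ d (z.1 a) (z.1 b) (z.1 k) (z.2.1 a) (z.2.1 b) (z.2.1 k)
      hsum.symm hlev
  · intro z hz w hw hzw
    have hlev : min (z.1 a) (s b - z.1 b) = d := (mem_filter.1 hz).2
    have hlev' : min (w.1 a) (s b - w.1 b) = d := (mem_filter.1 hw).2
    have hsum := sum_fin_three a b k hab hak hbk z.1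
    rw [z.2.2] at hsum
    have hsum' := sum_fin_three a b k hab hak hbk w.1
    rw [w.2.2] at hsum'
    have hzw' : z.1 a + z.1 b = w.1 a + w.1 b := hzw
    have e1 := b3c_inj (s b) d (z.1 a) (z.1 b) (z.2.1 b) hlev
    have e2 := b3c_inj (s b) d (w.1 a) (w.1 b) (w.2.1 b) hlev'
    have ea : z.1 a = w.1 a := by rw [e1, e2, hzw']
    have eb : z.1 b = w.1 b := by omega
    have ek : z.1 k = w.1 k := by omega
    apply Subtype.ext
    funext i
    rcases b3c_cases a b k hab hak hbk i with e | e | e
    · rw [e]; exact ea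
    · rw [e]; exact eb
    · rw [e]; exact ek
  · intro w hw
    rw [mem_Icc] at hw
    obtain ⟨hlo, hhi⟩ := hw
    have hdA : d ≤ s a := le_trans hd (min_le_left _ _)
    have hdB : d ≤ s b := le_trans hd (min_le_right _ _)
    have hlo1 : ρ - min ρ (s k) ≤ w := le_trans (le_max_left _ _) hlo
    have hlo2 : d ≤ w := le_trans (le_max_right _ _) hlo
    have hhi1 : w ≤ ρ := le_trans hhi (le_trans (min_le_left _ _) (min_le_left _ _))
    have hhi3 : w ≤ s a + s b - d := le_trans hhi (min_le_right _ _)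
    obtain ⟨f1, f2, f3, f4, f5, f6⟩ :=
      b3c_sur (s a) (s b) (s k) ρ d w hdA hdB hlo1 hlo2 hhi1 hhi3
    have va := b3c_vec_a a b (d + (w - s b)) (w - (d + (w - s b))) (ρ - w)
    have vb := b3c_vec_b a b hab (d + (w - s b)) (w - (d + (w - s b))) (ρ - w)
    have vk := b3c_vec_k a b k hak hbk (d + (w - s b)) (w - (d + (w - s b))) (ρ - w)
    have hbound : ∀ i, b3c_vec a b (d + (w - s b)) (w - (d + (w - s b))) (ρ - w) i ≤ s i := by
      intro i
      rcases b3c_cases a b k hab hak hbk i with e | e | e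
      · rw [e, va]; exact f1
      · rw [e, vb]; exact f2
      · rw [e, vk]; exact f3
    have hsumv : ∑ i, b3c_vec a b (d + (w - s b)) (w - (d + (w - s b))) (ρ - w) i = ρ := by
      rw [sum_fin_three a b k hab hak hbk, va, vb, vk]
      exact f4
    have hlv : levelB a b (⟨b3c_vec a b (d + (w - s b)) (w - (d + (w - s b))) (ρ - w),
        hbound, hsumv⟩ : Box 3 s ρ) = d := by
      unfold levelB
      show min (b3c_vec a b (d + (w - s b)) (w - (d + (w - s b))) (ρ - w) a)
          (s b - b3c_vec a b (d + (w - s b)) (w - (d + (w - s b))) (ρ - w) b) = d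
      rw [va, vb]
      exact f5
    have hgoal : b3c_vec a b (d + (w - s b)) (w - (d + (w - s b))) (ρ - w) a
        + b3c_vec a b (d + (w - s b)) (w - (d + (w - s b))) (ρ - w) b = w := by
      rw [va, vb]
      exact f6
    exact ⟨(⟨b3c_vec a b (d + (w - s b)) (w - (d + (w - s b))) (ρ - w), hbound, hsumv⟩ :
      Box 3 s ρ), mem_filter.2 ⟨mem_univ _, hlv⟩, hgoal⟩

end Vale.Agent.H14.CT
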