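import Mathlib

/-!
P328, base case of three columns, row B3-H: an abstract Hardy inequality for real sequences
with three certificates (pure sequences, no tables).

Setting.  `d0 < Dm` naturals, `N v : ℕ → ℝ` with `N (Dm + 1) = 0`, increments
`ν t = N t - N (t + 1) > 0` for `d0 ≤ t ≤ Dm`, nondecreasing for `d0 ≤ t < Dm`
(`ν (t - 1) ≤ ν t` for `d0 < t < Dm`), and `v d0 = 0 = v (Dm + 1)`.  Then

  `∑_{d = d0+1}^{Dm} v d ^ 2 / (d (d + 1) N d) ≤ μ ∑_{t = d0}^{Dm} (v t - v (t + 1)) ^ 2 / ((t + 1) ν t)`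

with `μ = 1/3` if `ν (Dm - 1) ≤ ν Dm` (A), `μ = 8/19` if `N Dm = 1`, `N (Dm - 1) = 3`,
`2 ≤ Dm` (B), `μ = 1/2` if `N Dm = 1`, `N (Dm - 1) = 3` (C).

Paper proof (thread P328, post 1132, Lemmas 1 and 2).  Picone: for reals `x, y` and `G, H > 0`,
`(x - y)^2 - (G - H) (x^2 / G - y^2 / H) = (x H - y G)^2 / (G H) ≥ 0`; if `x = 0`, `G ≥ 0`,
`H > 0`: `y^2 ≥ (H - G) y^2 / H`; if `y = 0`, `G > 0`: `x^2 = (0 - G) (0 - x^2 / G)`.
With a test sequence `g` (`g d > 0` for `d0 < d ≤ Dm`, `g d0 ≥ 0`, `g (Dm + 1) = 0`),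
`p t = (t + 1) ν t`, `κ d = d (d + 1) N d` and

  (CW)  `(g d - g (d - 1)) / p (d - 1) + (g d - g (d + 1)) / p d ≥ lam * g d / κ d`, `d0 < d ≤ Dm`,

apply Picone to `(x, y, G, H) = (v t, v (t + 1), g t, g (t + 1))`, divide by `p t`, sum over
`t = d0 .. Dm` and regroup by `d`: `∑_t (v t - v (t+1))^2 / p t ≥ lam ∑_d v d ^ 2 / κ d`.
Certificates: with `g = κ` one has for `d0 < d ≤ Dm` the identity
`(κ d - κ (d-1)) / p (d-1) + (κ d - κ (d+1)) / p d = 3 + 2 N d (1 / ν (d-1) - 1 / ν d)`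
(first term `2 N d / ν (d-1) - (d-1)`, second `d + 2 - 2 N d / ν d`); so (A): `lam = 3`;
(C): `lam = 2` (the top index gives `3 + 2 (1/2 - 1) = 2`); (B): `g d = κ d` for `d < Dm`,
`g Dm = (1 + 1 / (Dm + 1)) κ Dm`, `lam = 19/8` (at `d = Dm - 1` the value drops by
`(1 / (Dm + 1)) κ Dm / p (Dm - 1) = 1/2`; at `d = Dm`: `(Dm + 1) LHS = (7 Dm + 5) / 2
≥ (19/8) (Dm + 2)` iff `Dm ≥ 2`).
-/

namespace Vale.Agent.H14.CT

open Finset

/-- Picone inequality with boundary cases: `x` may vanish when `G` is only nonnegative, and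
`y` may vanish when `H` is only nonnegative. -/
theorem b3h_picone (x y G H : ℝ) (hG : 0 < G ∨ (x = 0 ∧ 0 ≤ G))
    (hH : 0 < H ∨ (y = 0 ∧ 0 ≤ H)) :
    (H - G) * (y ^ 2 / H - x ^ 2 / G) ≤ (x - y) ^ 2 := by
  rcases hG with hG | ⟨hx, hG⟩ <;> rcases hH with hH | ⟨hy, hH⟩
  · have e : (x - y) ^ 2 - (H - G) * (y ^ 2 / H - x ^ 2 / G) = (x * H - y * G) ^ 2 / (G * H) := by
      field_simp
      ring
    have h2 : 0 ≤ (x * H - y * G) ^ 2 / (G * H) := by positivity
    linarith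
  · subst hy
    have e : (H - G) * ((0 : ℝ) ^ 2 / H - x ^ 2 / G) = x ^ 2 - H * x ^ 2 / G := by
      field_simp
      ring
    have h2 : 0 ≤ H * x ^ 2 / G := by positivity
    rw [e]
    nlinarith
  · subst hx
    have e : (H - G) * (y ^ 2 / H - (0 : ℝ) ^ 2 / G) = y ^ 2 - G * y ^ 2 / H := by
      field_simp
      ring
    have h2 : 0 ≤ G * y ^ 2 / H := by positivity
    rw [e]
    nlinarith
  · subst hx
    subst hy
    simp

/-- Summation by parts on `Icc d0 D`. -/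
theorem b3h_sum_parts (d0 : ℕ) (a T : ℕ → ℝ) (D : ℕ) (hd : d0 ≤ D) :
    ∑ t ∈ Icc d0 D, a t * (T (t + 1) - T t)
      = ∑ d ∈ Ioc d0 D, T d * (a (d - 1) - a d) + a D * T (D + 1) - a d0 * T d0 := by
  induction D, hd using Nat.le_induction with
  | base =>
    simp
    ring
  | succ D hD ih =>
    rw [Finset.sum_Icc_succ_top (by omega), Finset.sum_Ioc_succ_top (by omega), ih]
    have e : D + 1 - 1 = D := by omega
    rw [e]
    ring

/-- Abstract Hardy inequality on a path with a positive test sequence `g`. -/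
theorem b3h_picone_hardy (d0 D : ℕ) (hd : d0 ≤ D) (p kap g v : ℕ → ℝ) (lam : ℝ)
    (hp : ∀ t, d0 ≤ t → t ≤ D → 0 < p t)
    (hkap : ∀ d, d0 < d → d ≤ D → 0 < kap d)
    (hg : ∀ d, d0 < d → d ≤ D → 0 < g d)
    (hg0 : 0 ≤ g d0) (hgD : 0 ≤ g (D + 1))
    (hv0 : v d0 = 0) (hvD : v (D + 1) = 0)
    (hlam : 0 < lam)
    (hCW : ∀ d, d0 < d → d ≤ D →
      lam * g d / kap d ≤ (g d - g (d - 1)) / p (d - 1) + (g d - g (d + 1)) / p d) :
    ∑ d ∈ Ioc d0 D, v d ^ 2 / kap d
      ≤ (1 / lam) * ∑ t ∈ Icc d0 D, (v t - v (t + 1)) ^ 2 / p t := by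
  set T : ℕ → ℝ := fun d => v d ^ 2 / g d with hT
  set a : ℕ → ℝ := fun t => (g (t + 1) - g t) / p t with ha
  have hside : ∀ t, d0 ≤ t → t ≤ D + 1 → (0 < g t ∨ (v t = 0 ∧ 0 ≤ g t)) := by
    intro t h1 h2
    rcases Nat.eq_or_lt_of_le h1 with h | h
    · right
      rw [← h]
      exact ⟨hv0, hg0⟩
    · rcases Nat.eq_or_lt_of_le h2 with h' | h'
      · right
        rw [h']
        exact ⟨hvD, hgD⟩
      · left
        exact hg t h (by omega)
  have h1 : ∑ t ∈ Icc d0 D, a t * (T (t + 1) - T t)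
      ≤ ∑ t ∈ Icc d0 D, (v t - v (t + 1)) ^ 2 / p t := by
    refine Finset.sum_le_sum (fun t ht => ?_)
    rw [Finset.mem_Icc] at ht
    have hpt := hp t ht.1 ht.2
    have hpic := b3h_picone (v t) (v (t + 1)) (g t) (g (t + 1)) (hside t ht.1 (by omega))
      (hside (t + 1) (by omega) (by omega))
    have e : a t * (T (t + 1) - T t)
        = ((g (t + 1) - g t) * (v (t + 1) ^ 2 / g (t + 1) - v t ^ 2 / g t)) / p t := by
      simp only [ha, hT]
      ring
    rw [e]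
    exact div_le_div_of_nonneg_right hpic hpt.le
  have hT0 : T d0 = 0 := by simp [hT, hv0]
  have hTD : T (D + 1) = 0 := by simp [hT, hvD]
  rw [b3h_sum_parts d0 a T D hd, hT0, hTD, mul_zero, mul_zero, add_zero, sub_zero] at h1
  have h2 : lam * ∑ d ∈ Ioc d0 D, v d ^ 2 / kap d ≤ ∑ d ∈ Ioc d0 D, T d * (a (d - 1) - a d) := by
    rw [Finset.mul_sum]
    refine Finset.sum_le_sum (fun d hdm => ?_)
    rw [Finset.mem_Ioc] at hdm
    have hgd := hg d hdm.1 hdm.2
    have hkd := hkap d hdm.1 hdm.2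
    have hcw := hCW d hdm.1 hdm.2
    have e1 : d - 1 + 1 = d := by omega
    have e2 : a (d - 1) - a d = (g d - g (d - 1)) / p (d - 1) + (g d - g (d + 1)) / p d := by
      simp only [ha, e1]
      ring
    rw [e2]
    have hTd : 0 ≤ T d := by
      simp only [hT]
      positivity
    have e3 : lam * (v d ^ 2 / kap d) = T d * (lam * g d / kap d) := by
      simp only [hT]
      field_simp
    rw [e3]
    exact mul_le_mul_of_nonneg_left hcw hTd
  have h3 : lam * ∑ d ∈ Ioc d0 D, v d ^ 2 / kap d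
      ≤ ∑ t ∈ Icc d0 D, (v t - v (t + 1)) ^ 2 / p t := le_trans h2 h1
  rw [one_div, ← div_eq_inv_mul, le_div_iff₀ hlam]
  linarith

/-- The basic identity for the test sequence `g d = d (d + 1) N d`. -/
theorem b3h_cw_identity (x n0 n1 n2 : ℝ) (hx : 0 < x) (ha : 0 < n0 - n1) (hb : 0 < n1 - n2) :
    (x * (x + 1) * n1 - (x - 1) * x * n0) / (x * (n0 - n1))
      + (x * (x + 1) * n1 - (x + 1) * (x + 2) * n2) / ((x + 1) * (n1 - n2))
      = 3 + 2 * n1 * (1 / (n0 - n1) - 1 / (n1 - n2)) := by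
  have hx1 : 0 < x + 1 := by linarith
  field_simp
  ring

/-- Positivity of the level counts below the top. -/
theorem b3h_N_pos (d0 D : ℕ) (N : ℕ → ℝ) (hN : N (D + 1) = 0)
    (hnu : ∀ t, d0 ≤ t → t ≤ D → 0 < N t - N (t + 1)) :
    ∀ k, k ≤ D - d0 → d0 ≤ D → 0 < N (D - k) := by
  intro k
  induction k with
  | zero =>
    intro _ hd
    have h := hnu D hd le_rfl
    rw [hN] at h
    simpa using h
  | succ k ih =>
    intro hk hd
    have h1 := ih (by omega) hd
    have h2 := hnu (D - (k + 1)) (by omega) (by omega)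
    have e : D - (k + 1) + 1 = D - k := by omega
    rw [e] at h2
    linarith

theorem b3h_N_pos' (d0 D : ℕ) (N : ℕ → ℝ) (hN : N (D + 1) = 0)
    (hnu : ∀ t, d0 ≤ t → t ≤ D → 0 < N t - N (t + 1)) (d : ℕ) (h1 : d0 ≤ d) (h2 : d ≤ D) :
    0 < N d := by
  have h := b3h_N_pos d0 D N hN hnu (D - d) (by omega) (by omega)
  have e : D - (D - d) = d := by omega
  rwa [e] at h

/-- The value of the test expression for `g = kap` at an index `d`. -/
theorem b3h_cw_kap (N : ℕ → ℝ) (d : ℕ) (hd : 0 < d) (ha : 0 < N (d - 1) - N d)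
    (hb : 0 < N d - N (d + 1)) :
    ((d : ℝ) * (d + 1) * N d - ((d - 1 : ℕ) : ℝ) * (((d - 1 : ℕ) : ℝ) + 1) * N (d - 1))
        / ((((d - 1 : ℕ) : ℝ) + 1) * (N (d - 1) - N d))
      + ((d : ℝ) * (d + 1) * N d - ((d + 1 : ℕ) : ℝ) * (((d + 1 : ℕ) : ℝ) + 1) * N (d + 1))
        / (((d : ℝ) + 1) * (N d - N (d + 1)))
      = 3 + 2 * N d * (1 / (N (d - 1) - N d) - 1 / (N d - N (d + 1))) := by
  have hx : (0 : ℝ) < d := by exact_mod_cast hd
  have e1 : ((d - 1 : ℕ) : ℝ) = (d : ℝ) - 1 := by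
    rw [Nat.cast_sub (by omega)]
    simp
  have e2 : ((d + 1 : ℕ) : ℝ) = (d : ℝ) + 1 := by push_cast; ring
  rw [e1, e2, ← b3h_cw_identity (d : ℝ) (N (d - 1)) (N d) (N (d + 1)) hx ha hb]
  have e3 : (d : ℝ) - 1 + 1 = d := by ring
  have e4 : (d : ℝ) + 1 + 1 = d + 2 := by ring
  rw [e3, e4]

/-- The inequality with the test sequence `g = kap` and a constant `lam ≤ 3` that is also
below the value at the top index. -/
theorem b3h_hardy_kap (d0 Dm : ℕ) (hdD : d0 < Dm) (N v : ℕ → ℝ) (hN : N (Dm + 1) = 0)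
    (hnu : ∀ t, d0 ≤ t → t ≤ Dm → 0 < N t - N (t + 1))
    (hmono : ∀ t, d0 < t → t < Dm → N (t - 1) - N t ≤ N t - N (t + 1))
    (lam : ℝ) (hlam : 0 < lam) (hlam3 : lam ≤ 3)
    (htop : lam ≤ 3 + 2 * N Dm * (1 / (N (Dm - 1) - N Dm) - 1 / (N Dm - N (Dm + 1))))
    (hv0 : v d0 = 0) (hvD : v (Dm + 1) = 0) :
    ∑ d ∈ Finset.Icc (d0 + 1) Dm, v d ^ 2 / ((d : ℝ) * (d + 1) * N d)
      ≤ (1 / lam) * ∑ t ∈ Finset.Icc d0 Dm,
          (v t - v (t + 1)) ^ 2 / (((t : ℝ) + 1) * (N t - N (t + 1))) := by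
  have hNpos := b3h_N_pos' d0 Dm N hN hnu
  have hIcc : Finset.Icc (d0 + 1) Dm = Finset.Ioc d0 Dm := by
    ext x
    simp only [Finset.mem_Icc, Finset.mem_Ioc]
    omega
  rw [hIcc]
  refine b3h_picone_hardy d0 Dm hdD.le (fun t => ((t : ℝ) + 1) * (N t - N (t + 1)))
    (fun d => (d : ℝ) * (d + 1) * N d) (fun d => (d : ℝ) * (d + 1) * N d) v lam ?_ ?_ ?_ ?_ ?_
    hv0 hvD hlam ?_
  · intro t h1 h2
    have := hnu t h1 h2
    positivity
  · intro d h1 h2
    have := hNpos d h1.le h2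
    have hd' : (0 : ℝ) < d := by exact_mod_cast (by omega : 0 < d)
    positivity
  · intro d h1 h2
    have := hNpos d h1.le h2
    have hd' : (0 : ℝ) < d := by exact_mod_cast (by omega : 0 < d)
    positivity
  · have := hNpos d0 le_rfl hdD.le
    positivity
  · rw [hN]
    simp
  · intro d h1 h2
    have hNd := hNpos d h1.le h2
    have hd' : (0 : ℝ) < d := by exact_mod_cast (by omega : 0 < d)
    have hk : 0 < (d : ℝ) * (d + 1) * N d := by positivity
    have ha := hnu (d - 1) (by omega) (by omega)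
    have e : d - 1 + 1 = d := by omega
    rw [e] at ha
    have hb := hnu d h1.le h2
    have key := b3h_cw_kap N d (by omega) ha hb
    have e6 : lam * ((d : ℝ) * (d + 1) * N d) / ((d : ℝ) * (d + 1) * N d) = lam := by
      field_simp
    simp only [e6, e]
    rw [key]
    rcases Nat.eq_or_lt_of_le h2 with h | h
    · subst h
      exact htop
    · have hm := hmono d h1 h
      have h3 : 1 / (N d - N (d + 1)) ≤ 1 / (N (d - 1) - N d) :=
        one_div_le_one_div_of_le ha hm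
      nlinarith

theorem hardy_A (d0 Dm : ℕ) (hdD : d0 < Dm) (N v : ℕ → ℝ) (hN : N (Dm + 1) = 0)
    (hnu : ∀ t, d0 ≤ t → t ≤ Dm → 0 < N t - N (t + 1))
    (hmono : ∀ t, d0 < t → t < Dm → N (t - 1) - N t ≤ N t - N (t + 1))
    (htop : N (Dm - 1) - N Dm ≤ N Dm)
    (hv0 : v d0 = 0) (hvD : v (Dm + 1) = 0) :
    ∑ d ∈ Finset.Icc (d0 + 1) Dm, v d ^ 2 / ((d : ℝ) * (d + 1) * N d)
      ≤ (1 / 3) * ∑ t ∈ Finset.Icc d0 Dm,
          (v t - v (t + 1)) ^ 2 / (((t : ℝ) + 1) * (N t - N (t + 1))) := by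
  refine b3h_hardy_kap d0 Dm hdD N v hN hnu hmono 3 (by norm_num) le_rfl ?_ hv0 hvD
  have hNpos := b3h_N_pos' d0 Dm N hN hnu Dm hdD.le le_rfl
  have ha := hnu (Dm - 1) (by omega) (by omega)
  have e : Dm - 1 + 1 = Dm := by omega
  rw [e] at ha
  have hb := hnu Dm hdD.le le_rfl
  have hm : N (Dm - 1) - N Dm ≤ N Dm - N (Dm + 1) := by rw [hN]; linarith
  have h3 : 1 / (N Dm - N (Dm + 1)) ≤ 1 / (N (Dm - 1) - N Dm) :=
    one_div_le_one_div_of_le ha hm
  nlinarith

/-- The test inequality at the top index for the modified test sequence of case B. -/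
theorem b3h_top_B (x : ℝ) (hx : 2 ≤ x) :
    19 / 8 * (x + 2) / (x + 1) ≤ (5 - 2 * x) / 2 + x * (x + 2) / (x + 1) := by
  have hx1 : 0 < x + 1 := by linarith
  rw [div_add_div _ _ two_ne_zero hx1.ne', div_le_div_iff₀ hx1 (by positivity)]
  nlinarith

theorem hardy_B (d0 Dm : ℕ) (hdD : d0 < Dm) (N v : ℕ → ℝ) (hN : N (Dm + 1) = 0)
    (hnu : ∀ t, d0 ≤ t → t ≤ Dm → 0 < N t - N (t + 1))
    (hmono : ∀ t, d0 < t → t < Dm → N (t - 1) - N t ≤ N t - N (t + 1))
    (hD1 : N Dm = 1) (hD3 : N (Dm - 1) = 3) (hD2 : 2 ≤ Dm)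
    (hv0 : v d0 = 0) (hvD : v (Dm + 1) = 0) :
    ∑ d ∈ Finset.Icc (d0 + 1) Dm, v d ^ 2 / ((d : ℝ) * (d + 1) * N d)
      ≤ (8 / 19) * ∑ t ∈ Finset.Icc d0 Dm,
          (v t - v (t + 1)) ^ 2 / (((t : ℝ) + 1) * (N t - N (t + 1))) := by
  have hNpos := b3h_N_pos' d0 Dm N hN hnu
  have hIcc : Finset.Icc (d0 + 1) Dm = Finset.Ioc d0 Dm := by
    ext x
    simp only [Finset.mem_Icc, Finset.mem_Ioc]
    omega
  rw [hIcc]
  have hxD : (2 : ℝ) ≤ (Dm : ℝ) := by exact_mod_cast hD2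
  have e819 : (8 : ℝ) / 19 = 1 / (19 / 8) := by norm_num
  rw [e819]
  set kap : ℕ → ℝ := fun d => (d : ℝ) * (d + 1) * N d with hkap
  set g : ℕ → ℝ := fun d => if d = Dm then (1 + 1 / ((Dm : ℝ) + 1)) * kap Dm else kap d with hg
  have hkpos : ∀ d, d0 < d → d ≤ Dm → 0 < kap d := by
    intro d h1 h2
    have := hNpos d h1.le h2
    have hd' : (0 : ℝ) < d := by exact_mod_cast (by omega : 0 < d)
    simp only [hkap]
    positivity
  refine b3h_picone_hardy d0 Dm hdD.le (fun t => ((t : ℝ) + 1) * (N t - N (t + 1)))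
    kap g v (19 / 8) ?_ hkpos ?_ ?_ ?_ hv0 hvD (by norm_num) ?_
  · intro t h1 h2
    have := hnu t h1 h2
    positivity
  · intro d h1 h2
    have hk := hkpos d h1 h2
    by_cases hd : d = Dm
    · have : g d = (1 + 1 / ((Dm : ℝ) + 1)) * kap Dm := by simp [hg, hd]
      rw [this]
      rw [hd] at hk
      positivity
    · have : g d = kap d := by simp [hg, hd]
      rw [this]
      exact hk
  · have hne : d0 ≠ Dm := by omega
    have : g d0 = kap d0 := by simp [hg, hne]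
    rw [this]
    have := hNpos d0 le_rfl hdD.le
    simp only [hkap]
    positivity
  · have hne : Dm + 1 ≠ Dm := by omega
    have : g (Dm + 1) = kap (Dm + 1) := by simp [hg]
    rw [this]
    simp only [hkap]
    rw [hN]
    simp
  · intro d h1 h2
    have e : d - 1 + 1 = d := by omega
    have hd' : (0 : ℝ) < d := by exact_mod_cast (by omega : 0 < d)
    have e1 : ((d - 1 : ℕ) : ℝ) = (d : ℝ) - 1 := by
      rw [Nat.cast_sub (by omega)]
      simp
    have e2 : ((d + 1 : ℕ) : ℝ) = (d : ℝ) + 1 := by push_cast; ring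
    have hne1 : d - 1 ≠ Dm := by omega
    have hgd1 : g (d - 1) = kap (d - 1) := by simp [hg, hne1]
    have hk := hkpos d h1 h2
    simp only [e]
    rcases Nat.eq_or_lt_of_le h2 with h | h
    · -- top index
      subst h
      have hgd : g d = (1 + 1 / ((d : ℝ) + 1)) * kap d := by simp [hg]
      have hgd2 : g (d + 1) = 0 := by
        have : g (d + 1) = kap (d + 1) := by simp [hg]
        rw [this]
        simp only [hkap]
        rw [hN]
        simp
      have hkd : kap d = (d : ℝ) * (d + 1) := by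
        simp only [hkap]
        rw [hD1]
        ring
      have hkd1 : kap (d - 1) = ((d : ℝ) - 1) * (d : ℝ) * 3 := by
        simp only [hkap]
        rw [hD3, e1]
        ring
      rw [hgd, hgd1, hgd2, hkd, hkd1, hD3, hD1, hN, e1]
      have hx1 : (0 : ℝ) < (d : ℝ) + 1 := by linarith
      have t1 : 19 / 8 * ((1 + 1 / ((d : ℝ) + 1)) * ((d : ℝ) * (d + 1))) / ((d : ℝ) * (d + 1))
          = 19 / 8 * ((d : ℝ) + 2) / (d + 1) := by
        field_simp
        ring
      have t2 : ((1 + 1 / ((d : ℝ) + 1)) * ((d : ℝ) * (d + 1)) - ((d : ℝ) - 1) * d * 3)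
          / (((d : ℝ) - 1 + 1) * (3 - 1)) = (5 - 2 * (d : ℝ)) / 2 := by
        have e8 : (d : ℝ) - 1 + 1 = d := by ring
        have hdne : (d : ℝ) ≠ 0 := hd'.ne'
        rw [e8]
        field_simp
        ring
      have t3 : ((1 + 1 / ((d : ℝ) + 1)) * ((d : ℝ) * (d + 1)) - 0) / (((d : ℝ) + 1) * (1 - 0))
          = (d : ℝ) * (d + 2) / (d + 1) := by
        field_simp
        ring
      rw [t1, t2, t3]
      exact b3h_top_B (d : ℝ) hxD
    · have hne : d ≠ Dm := by omega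
      have hgd : g d = kap d := by simp [hg, hne]
      have ha := hnu (d - 1) (by omega) (by omega)
      rw [e] at ha
      have hb := hnu d h1.le h2
      have hm := hmono d h1 h
      have key := b3h_cw_kap N d (by omega) ha hb
      have hpd : 0 < ((d : ℝ) + 1) * (N d - N (d + 1)) := by positivity
      have hc : g (d + 1) ≤ kap (d + 1) + (1 / 2) * (((d : ℝ) + 1) * (N d - N (d + 1))) := by
        by_cases hd1 : d + 1 = Dm
        · have hNd : N d = 3 := by
            have : d = Dm - 1 := by omega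
            rw [this]
            exact hD3
          have hNd1 : N (d + 1) = 1 := by
            rw [hd1]
            exact hD1
          have hgg : g (d + 1) = (1 + 1 / ((Dm : ℝ) + 1)) * kap Dm := by simp [hg, hd1]
          have hDm : (Dm : ℝ) = (d : ℝ) + 1 := by
            rw [← hd1]
            push_cast
            ring
          have hkD : kap Dm = ((d : ℝ) + 1) * ((d : ℝ) + 2) := by
            simp only [hkap]
            rw [hD1, hDm]
            ring
          have hk1 : kap (d + 1) = ((d : ℝ) + 1) * ((d : ℝ) + 2) := by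
            rw [hd1]
            exact hkD
          rw [hgg, hkD, hk1, hNd, hNd1, hDm]
          have hx2 : (0 : ℝ) < (d : ℝ) + 1 + 1 := by linarith
          have : (1 + 1 / ((d : ℝ) + 1 + 1)) * (((d : ℝ) + 1) * ((d : ℝ) + 2))
              = ((d : ℝ) + 1) * ((d : ℝ) + 2) + 1 / 2 * (((d : ℝ) + 1) * (3 - 1)) := by
            field_simp
            ring
          rw [this]
        · have : g (d + 1) = kap (d + 1) := by simp [hg, hd1]
          rw [this]
          linarith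
      rw [hgd, hgd1]
      have e6 : 19 / 8 * kap d / kap d = 19 / 8 := by
        field_simp
      rw [e6]
      have h4 : (kap d - kap (d + 1)) / (((d : ℝ) + 1) * (N d - N (d + 1))) - 1 / 2
          ≤ (kap d - g (d + 1)) / (((d : ℝ) + 1) * (N d - N (d + 1))) := by
        have e7 : (kap d - kap (d + 1)) / (((d : ℝ) + 1) * (N d - N (d + 1))) - 1 / 2
            = (kap d - kap (d + 1) - 1 / 2 * (((d : ℝ) + 1) * (N d - N (d + 1))))
              / (((d : ℝ) + 1) * (N d - N (d + 1))) := by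
          field_simp
        rw [e7]
        exact div_le_div_of_nonneg_right (by linarith) hpd.le
      have h3 : 1 / (N d - N (d + 1)) ≤ 1 / (N (d - 1) - N d) :=
        one_div_le_one_div_of_le ha hm
      have hNd := hNpos d h1.le h2
      have key' : (kap d - kap (d - 1)) / ((((d - 1 : ℕ) : ℝ) + 1) * (N (d - 1) - N d))
          + (kap d - kap (d + 1)) / (((d : ℝ) + 1) * (N d - N (d + 1)))
          = 3 + 2 * N d * (1 / (N (d - 1) - N d) - 1 / (N d - N (d + 1))) := by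
        simp only [hkap]
        exact key
      nlinarith

theorem hardy_C (d0 Dm : ℕ) (hdD : d0 < Dm) (N v : ℕ → ℝ) (hN : N (Dm + 1) = 0)
    (hnu : ∀ t, d0 ≤ t → t ≤ Dm → 0 < N t - N (t + 1))
    (hmono : ∀ t, d0 < t → t < Dm → N (t - 1) - N t ≤ N t - N (t + 1))
    (hD1 : N Dm = 1) (hD3 : N (Dm - 1) = 3)
    (hv0 : v d0 = 0) (hvD : v (Dm + 1) = 0) :
    ∑ d ∈ Finset.Icc (d0 + 1) Dm, v d ^ 2 / ((d : ℝ) * (d + 1) * N d)
      ≤ (1 / 2) * ∑ t ∈ Finset.Icc d0 Dm,
          (v t - v (t + 1)) ^ 2 / (((t : ℝ) + 1) * (N t - N (t + 1))) := by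
  refine b3h_hardy_kap d0 Dm hdD N v hN hnu hmono 2 (by norm_num) (by norm_num) ?_ hv0 hvD
  rw [hN, hD1, hD3]
  norm_num

end Vale.Agent.H14.CT
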