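import Mathlib

/-!
P328, base case of three columns: arithmetic of the level counts.  With `m = min (s a) (s b)`,
`sig = s a + s b`, `wlo ≤ whi ≤ sig` the range of `z a + z b` and `2 m ≤ sig`, the number of
points of level `d` is `b3nf m sig wlo whi d`; the depths range over `[b3dmin, b3dmax]`; the
increments of `b3nf` are positive and nondecreasing below the top, and at the top either the
increment does not drop or the profile is peaked (`N = 1, 3` at the two top levels).
-/

namespace Vale.Agent.H14.CT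

/-- The level counts of a three-column class. -/
def b3nf (m sig wlo whi d : ℕ) : ℕ :=
  if d ≤ m then (min whi (sig - d) + 1) - max wlo d else 0

/-- The largest depth. -/
def b3dmax (m sig wlo whi : ℕ) : ℕ := min (min m whi) (sig - wlo)

/-- The smallest depth. -/
def b3dmin (m sig wlo whi : ℕ) : ℕ := min (min wlo (sig - whi)) (b3dmax m sig wlo whi)

theorem b3nf_pos (m sig wlo whi d : ℕ) (h1 : wlo ≤ whi) (h2 : whi ≤ sig) (h3 : 2 * m ≤ sig)
    (hd : d ≤ b3dmax m sig wlo whi) : 1 ≤ b3nf m sig wlo whi d := by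
  unfold b3nf b3dmax at *
  split_ifs with h
  · omega
  · omega

theorem b3nf_zero (m sig wlo whi d : ℕ) (h1 : wlo ≤ whi) (h2 : whi ≤ sig) (h3 : 2 * m ≤ sig)
    (hd : b3dmax m sig wlo whi < d) : b3nf m sig wlo whi d = 0 := by
  unfold b3nf b3dmax at *
  split_ifs with h
  · omega
  · rfl

theorem b3nf_step (m sig wlo whi t : ℕ) (h1 : wlo ≤ whi) (h2 : whi ≤ sig) (h3 : 2 * m ≤ sig)
    (h0 : b3dmin m sig wlo whi ≤ t) (ht : t < b3dmax m sig wlo whi) :
    b3nf m sig wlo whi (t + 1) < b3nf m sig wlo whi t := by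
  unfold b3nf b3dmin b3dmax at *
  split_ifs <;> omega

theorem b3nf_mono (m sig wlo whi t : ℕ) (h1 : wlo ≤ whi) (h2 : whi ≤ sig) (h3 : 2 * m ≤ sig)
    (h0 : b3dmin m sig wlo whi < t) (ht : t < b3dmax m sig wlo whi) :
    b3nf m sig wlo whi (t - 1) + b3nf m sig wlo whi (t + 1) ≤ 2 * b3nf m sig wlo whi t := by
  unfold b3nf b3dmin b3dmax at *
  split_ifs <;> omega

theorem b3nf_top (m sig wlo whi : ℕ) (h1 : wlo ≤ whi) (h2 : whi ≤ sig) (h3 : 2 * m ≤ sig)
    (h0 : b3dmin m sig wlo whi < b3dmax m sig wlo whi) :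
    b3nf m sig wlo whi (b3dmax m sig wlo whi - 1) ≤ 2 * b3nf m sig wlo whi (b3dmax m sig wlo whi) ∨
      (b3nf m sig wlo whi (b3dmax m sig wlo whi) = 1 ∧
        b3nf m sig wlo whi (b3dmax m sig wlo whi - 1) = 3 ∧
        sig = 2 * b3dmax m sig wlo whi ∧ m = b3dmax m sig wlo whi ∧
        wlo + 1 ≤ b3dmax m sig wlo whi ∧ b3dmax m sig wlo whi + 1 ≤ whi) := by
  unfold b3nf b3dmin b3dmax at *
  split_ifs <;> omega

end Vale.Agent.H14.CT
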