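import Vale.Agent.H91.CT.GenDefs

/-!
P328: box-slice classes (first rows of two-rowed contingency tables) and the slicing
hypothesis (definitions only).

A two-rowed table with column sums `s` and first row sum `ρ` is determined by its first row
`z`, a vector with `z k ≤ s k` and `∑ z = ρ`.  `Box n s ρ` is the set of these vectors.  For an
ordered pair of distinct columns `a, b`: the line relation (agree outside `a, b`), the depth
(number of points of the line minus one), the level (position on the line), the block
Dirichlet form `QB`, the closed-form penalty `penB`.  `slackB f` is the sum over the ordered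
pairs of `QB - penB`, the penalty taken of the centred function.  `SliceHyp` says that the
slack of a class with at least three columns is at least the sum of the slacks of its slices
`{z a = j}` (classes with one column less).
-/

namespace Vale.Agent.H14.CT

open Finset Vale.Agent.H90

/-- The box-slice class: vectors `z` with `z k ≤ s k` and `∑ z = ρ`. -/
def Box (n : ℕ) (s : Fin n → ℕ) (ρ : ℕ) : Type :=
  {z : Fin n → ℕ // (∀ k, z k ≤ s k) ∧ ∑ k, z k = ρ}

instance instFiniteBox (n : ℕ) (s : Fin n → ℕ) (ρ : ℕ) : Finite (Box n s ρ) := by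
  refine Finite.of_injective
    (fun z : Box n s ρ => fun (k : Fin n) =>
      (⟨z.1 k, Nat.lt_succ_of_le (z.2.1 k)⟩ : Fin (s k + 1))) ?_
  intro z w h
  apply Subtype.ext
  funext k
  have := congrFun h k
  exact Fin.mk.inj_iff.1 this

noncomputable instance instFintypeBox (n : ℕ) (s : Fin n → ℕ) (ρ : ℕ) : Fintype (Box n s ρ) :=
  Fintype.ofFinite _

instance instDecEqBox (n : ℕ) (s : Fin n → ℕ) (ρ : ℕ) : DecidableEq (Box n s ρ) := by
  unfold Box; infer_instance

variable {n : ℕ} {s : Fin n → ℕ} {ρ : ℕ}

/-- Line relation of the column pair `a, b`: the two vectors agree outside `a, b`. -/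
def LineRel (a b : Fin n) (z w : Box n s ρ) : Prop := ∀ k, k ≠ a → k ≠ b → z.1 k = w.1 k

instance (a b : Fin n) : DecidableRel (LineRel (s := s) (ρ := ρ) a b) := fun z w => by
  unfold LineRel; infer_instance

/-- Depth of the line of `z` in the columns `a, b`: its number of points minus one. -/
def depthB (a b : Fin n) (z : Box n s ρ) : ℕ :=
  min (min (z.1 a + z.1 b) ((s a - z.1 a) + (s b - z.1 b))) (min (s a) (s b))

/-- Level of `z` on its line in the columns `a, b`. -/
def levelB (a b : Fin n) (z : Box n s ρ) : ℕ := min (z.1 a) (s b - z.1 b)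

/-- Block Dirichlet form of the ordered column pair `a, b`. -/
noncomputable def QB (a b : Fin n) (f : Box n s ρ → ℝ) : ℝ :=
  ∑ z, (f z - avgRel (LineRel a b) f z) ^ 2

/-- Closed-form penalty of the ordered column pair `a, b`. -/
noncomputable def penB (a b : Fin n) (f : Box n s ρ → ℝ) : ℝ :=
  ∑ d ∈ Finset.Icc 1 (min (s a) (s b)),
    (∑ z ∈ univ.filter (fun z : Box n s ρ => d ≤ depthB a b z), f z) ^ 2 /
      ((d : ℝ) * (d + 1) * ((univ.filter (fun z : Box n s ρ => levelB a b z = d)).card : ℝ))

/-- The centred function `f - mean f`. -/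
noncomputable def centreB (f : Box n s ρ → ℝ) : Box n s ρ → ℝ :=
  fun z => f z - (∑ w, f w) / (Fintype.card (Box n s ρ) : ℝ)

/-- The slack: sum over the ordered pairs of distinct columns of the block Dirichlet form of
`f` minus the penalty of the centred `f`. -/
noncomputable def slackB (f : Box n s ρ → ℝ) : ℝ :=
  ∑ a : Fin n, ∑ b : Fin n, if a ≠ b then QB a b f - penB a b (centreB f) else 0

/-- The restriction of `f` to the slice `{z a = j}`, as a function on the class with column
`a` removed (value `0` if the slice is not inside the class). -/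
noncomputable def sliceFun {n : ℕ} {s : Fin (n + 1) → ℕ} {ρ : ℕ} (a : Fin (n + 1)) (j : ℕ)
    (f : Box (n + 1) s ρ → ℝ) : Box n (fun k => s (a.succAbove k)) (ρ - j) → ℝ :=
  fun w =>
    if h : (∀ k, (Fin.insertNth a j w.1 : Fin (n + 1) → ℕ) k ≤ s k) ∧
        ∑ k, (Fin.insertNth a j w.1 : Fin (n + 1) → ℕ) k = ρ
    then f ⟨Fin.insertNth a j w.1, h⟩ else 0

/-- The slicing hypothesis (SL1): in a class with at least three columns and for every column
`a`, the slack is at least the sum of the slacks of the slices `{z a = j}`. -/
def SliceHyp : Prop :=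
  ∀ (n : ℕ), 2 ≤ n → ∀ (s : Fin (n + 1) → ℕ) (ρ : ℕ) (a : Fin (n + 1))
    (f : Box (n + 1) s ρ → ℝ),
    ∑ j ∈ Finset.range (min (s a) ρ + 1), slackB (sliceFun a j f) ≤ slackB f

end Vale.Agent.H14.CT
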