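import Vale.Agent.H14.CT.Base3Abs
import Vale.Agent.H14.CT.Base3Count
import Vale.Agent.H14.CT.Base3Prof
import Vale.Agent.H91.CT.BoxStruct14

/-!
P328, base case of three columns: the penalty of one ordered pair of columns of a three-column
box-slice class is at most `μ ∑ (line average) ^ 2` with `μ = 1/2` for a pair of type C
(`s a = s b = 1`, `2 ≤ ρ ≤ s k`) and `μ = 8/19` otherwise.
-/

namespace Vale.Agent.H14.CT

open Finset Vale.Agent.H90 Vale.Agent.H91.CT.Sur2Aux

/-- Pairs of type C: both caps are `1` and the third column is free. -/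
def b3C (s : Fin 3 → ℕ) (ρ : ℕ) (a b k : Fin 3) : Prop :=
  s a = 1 ∧ s b = 1 ∧ 2 ≤ ρ ∧ ρ ≤ s k

instance (s : Fin 3 → ℕ) (ρ : ℕ) (a b k : Fin 3) : Decidable (b3C s ρ a b k) := by
  unfold b3C; infer_instance

/-- The constant of the pair `a, b` (third column `k`). -/
noncomputable def b3mu (s : Fin 3 → ℕ) (ρ : ℕ) (a b k : Fin 3) : ℝ :=
  if b3C s ρ a b k then 1 / 2 else 8 / 19

theorem b3mu_ge (s : Fin 3 → ℕ) (ρ : ℕ) (a b k : Fin 3) : 8 / 19 ≤ b3mu s ρ a b k := by
  unfold b3mu
  split_ifs <;> norm_num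

theorem b3_pair (s : Fin 3 → ℕ) (ρ : ℕ) (a b k : Fin 3) (hab : a ≠ b) (hak : a ≠ k)
    (hbk : b ≠ k) (f : Box 3 s ρ → ℝ) (hf : ∑ z, f z = 0) :
    penB a b f ≤ b3mu s ρ a b k * ∑ z, avgRel (LineRel a b) f z ^ 2 := by
  have hμ8 := b3mu_ge s ρ a b k
  by_cases hne : Nonempty (Box 3 s ρ)
  · obtain ⟨z0⟩ := hne
    have hρ : ρ ≤ s a + s b + s k := by
      have h := z0.2.2
      rw [sum_fin_three a b k hab hak hbk] at h
      have := z0.2.1 a
      have := z0.2.1 b
      have := z0.2.1 k
      omega
    have h1 : ρ - min ρ (s k) ≤ min ρ (s a + s b) := by omega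
    have h2 : min ρ (s a + s b) ≤ s a + s b := by omega
    have h3 : 2 * min (s a) (s b) ≤ s a + s b := by omega
    have hNn : ∀ d, Nn (levelB (s := s) (ρ := ρ) a b) d
        = (b3nf (min (s a) (s b)) (s a + s b) (ρ - min ρ (s k)) (min ρ (s a + s b)) d : ℝ) := by
      intro d
      unfold Nn
      by_cases hd : d ≤ min (s a) (s b)
      · rw [card_level s ρ a b k hab hak hbk d hd]
        unfold b3nf
        rw [if_pos hd]
      · have hemp : univ.filter (fun z : Box 3 s ρ => levelB a b z = d) = ∅ := by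
          refine Finset.filter_false_of_mem (fun z _ hz => ?_)
          have := z.2.1 a
          unfold levelB at hz
          omega
        rw [hemp, Finset.card_empty]
        unfold b3nf
        rw [if_neg hd]
    have hdep : ∀ z : Box 3 s ρ,
        b3dmin (min (s a) (s b)) (s a + s b) (ρ - min ρ (s k)) (min ρ (s a + s b)) ≤ depthB a b z ∧
        depthB a b z ≤ b3dmax (min (s a) (s b)) (s a + s b) (ρ - min ρ (s k)) (min ρ (s a + s b)) := by
      intro z
      have hz := z.2.2
      rw [sum_fin_three a b k hab hak hbk] at hz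
      have := z.2.1 a
      have := z.2.1 b
      have := z.2.1 k
      unfold depthB b3dmin b3dmax
      omega
    have hDm : b3dmax (min (s a) (s b)) (s a + s b) (ρ - min ρ (s k)) (min ρ (s a + s b))
        ≤ min (s a) (s b) := by
      unfold b3dmax
      omega
    have key := b3_pair_bound (LineRel a b) (levelB a b) (depthB a b) (lineRel_equiv a b)
      (depthB_const a b hab) (box_class_level a b hab) (levelB_le_depthB a b hab) f hf
      (min (s a) (s b))
      (b3dmin (min (s a) (s b)) (s a + s b) (ρ - min ρ (s k)) (min ρ (s a + s b)))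
      (b3dmax (min (s a) (s b)) (s a + s b) (ρ - min ρ (s k)) (min ρ (s a + s b)))
      hDm hdep ?_ ?_ (b3mu s ρ a b k) (by linarith) ?_
    · exact key
    · intro t ht0 ht1
      rw [hNn, hNn]
      rcases Nat.lt_or_ge t
        (b3dmax (min (s a) (s b)) (s a + s b) (ρ - min ρ (s k)) (min ρ (s a + s b))) with hlt | hge
      · have := b3nf_step _ _ _ _ t h1 h2 h3 ht0 hlt
        have h' : ((b3nf (min (s a) (s b)) (s a + s b) (ρ - min ρ (s k)) (min ρ (s a + s b))
            (t + 1) : ℕ) : ℝ)
            < (b3nf (min (s a) (s b)) (s a + s b) (ρ - min ρ (s k)) (min ρ (s a + s b)) t : ℝ) := by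
          exact_mod_cast this
        linarith
      · have ha := b3nf_pos _ _ _ _ t h1 h2 h3 ht1
        have hb := b3nf_zero _ _ _ _ (t + 1) h1 h2 h3 (by omega)
        rw [hb]
        have h' : (1 : ℝ) ≤ (b3nf (min (s a) (s b)) (s a + s b) (ρ - min ρ (s k))
            (min ρ (s a + s b)) t : ℝ) := by
          exact_mod_cast ha
        simp only [Nat.cast_zero, sub_zero]
        linarith
    · intro t ht0 ht1
      rw [hNn, hNn, hNn]
      have := b3nf_mono _ _ _ _ t h1 h2 h3 ht0 ht1
      have h' : ((b3nf (min (s a) (s b)) (s a + s b) (ρ - min ρ (s k)) (min ρ (s a + s b))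
          (t - 1) : ℕ) : ℝ)
          + (b3nf (min (s a) (s b)) (s a + s b) (ρ - min ρ (s k)) (min ρ (s a + s b)) (t + 1) : ℝ)
          ≤ 2 * (b3nf (min (s a) (s b)) (s a + s b) (ρ - min ρ (s k)) (min ρ (s a + s b)) t : ℝ) := by
        exact_mod_cast this
      linarith
    · intro hlt
      rw [hNn, hNn]
      rcases b3nf_top _ _ _ _ h1 h2 h3 hlt with htop | ⟨hD1, hD3, hsig, hm, hw1, hw2⟩
      · left
        refine ⟨?_, by linarith⟩
        have h' : ((b3nf (min (s a) (s b)) (s a + s b) (ρ - min ρ (s k)) (min ρ (s a + s b))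
            (b3dmax (min (s a) (s b)) (s a + s b) (ρ - min ρ (s k)) (min ρ (s a + s b)) - 1) : ℕ) : ℝ)
            ≤ 2 * (b3nf (min (s a) (s b)) (s a + s b) (ρ - min ρ (s k)) (min ρ (s a + s b))
              (b3dmax (min (s a) (s b)) (s a + s b) (ρ - min ρ (s k)) (min ρ (s a + s b))) : ℝ) := by
          exact_mod_cast htop
        linarith
      · right
        rw [hD1, hD3]
        by_cases h2D : 2 ≤ b3dmax (min (s a) (s b)) (s a + s b) (ρ - min ρ (s k)) (min ρ (s a + s b))
        · left
          exact ⟨by norm_num, by norm_num, h2D, hμ8⟩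
        · right
          refine ⟨by norm_num, by norm_num, ?_⟩
          have hC : b3C s ρ a b k := by
            unfold b3C
            omega
          unfold b3mu
          rw [if_pos hC]
  · have hemp : IsEmpty (Box 3 s ρ) := not_nonempty_iff.1 hne
    have hz : ∀ (G : Box 3 s ρ → ℝ) (S : Finset (Box 3 s ρ)), ∑ z ∈ S, G z = 0 :=
      fun G S => Finset.sum_eq_zero (fun z _ => (hemp.false z).elim)
    unfold penB
    rw [hz, mul_zero]
    refine le_of_eq (Finset.sum_eq_zero (fun d _ => ?_))
    rw [hz]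
    simp

end Vale.Agent.H14.CT
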