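import Vale.Agent.H14.CT.BoxRed
import Vale.Agent.H91.CT.Transpose

/-!
P328: classes of two-rowed contingency tables are box-slice classes (first row), and the
surplus inequality with general constants follows from the slicing hypothesis.
-/

namespace Vale.Agent.H14.CT

open Finset Vale.Agent.H90 Vale.Agent.H88.CT Vale.Agent.H91.CT

variable {n : ℕ} {r : Fin 2 → ℕ} {c : Fin n → ℕ}

theorem two_c (X : Omega r c) (l : Fin n) : c l = X.1 0 l + X.1 1 l := by
  have h := X.2.2 l
  rw [Fin.sum_univ_two] at h
  exact h.symm

/-- The margins of a nonempty class of two-rowed tables have the same total. -/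
theorem two_total (X : Omega r c) : ∑ k, c k = r 0 + r 1 := by
  rw [← X.2.1 0, ← X.2.1 1, ← Finset.sum_add_distrib]
  exact Finset.sum_congr rfl (fun k _ => two_c X k)

theorem tabOf_aux (hr : ∑ k, c k = r 0 + r 1) (z : Box n c (r 0)) :
    (∀ i : Fin 2, ∑ k, (if i = 0 then z.1 k else c k - z.1 k) = r i) ∧
      ∀ k : Fin n, ∑ i : Fin 2, (if i = 0 then z.1 k else c k - z.1 k) = c k := by
  constructor
  · intro i
    fin_cases i
    · simp only [Fin.zero_eta, if_true]
      exact z.2.2
    · have h10 : ¬ ((1 : Fin 2) = 0) := by decide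
      simp only [Fin.mk_one, if_neg h10]
      have h1 : ∑ k, (c k - z.1 k) + ∑ k, z.1 k = ∑ k, c k := by
        rw [← Finset.sum_add_distrib]
        exact Finset.sum_congr rfl (fun k _ => Nat.sub_add_cancel (z.2.1 k))
      rw [z.2.2] at h1
      omega
  · intro k
    rw [Fin.sum_univ_two]
    have h10 : ¬ ((1 : Fin 2) = 0) := by decide
    rw [if_pos rfl, if_neg h10]
    have := z.2.1 k
    omega

/-- The two-rowed table with first row `z`. -/
def tabOf (hr : ∑ k, c k = r 0 + r 1) (z : Box n c (r 0)) : Omega r c :=
  ⟨fun i k => if i = 0 then z.1 k else c k - z.1 k, tabOf_aux hr z⟩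

/-- The first row of a two-rowed table. -/
def rowOf (X : Omega r c) : Box n c (r 0) :=
  ⟨X.1 0, fun k => entry_le_col X 0 k, X.2.1 0⟩

theorem rowOf_val (X : Omega r c) (k : Fin n) : (rowOf X).1 k = X.1 0 k := rfl

theorem tabOf_zero (hr : ∑ k, c k = r 0 + r 1) (z : Box n c (r 0)) (k : Fin n) :
    (tabOf hr z).1 0 k = z.1 k := by
  unfold tabOf
  simp

theorem tabOf_one (hr : ∑ k, c k = r 0 + r 1) (z : Box n c (r 0)) (k : Fin n) :
    (tabOf hr z).1 1 k = c k - z.1 k := by
  unfold tabOf
  simp

/-- Two-rowed tables correspond to their first rows. -/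
def boxEquiv (hr : ∑ k, c k = r 0 + r 1) : Omega r c ≃ Box n c (r 0) where
  toFun := rowOf
  invFun := tabOf hr
  left_inv X := by
    apply Subtype.ext
    funext i k
    fin_cases i
    · exact tabOf_zero hr (rowOf X) k
    · have h1 := tabOf_one hr (rowOf X) k
      have h2 := two_c X k
      rw [rowOf_val] at h1
      simp only [Fin.mk_one]
      omega
  right_inv z := by
    apply Subtype.ext
    funext k
    exact tabOf_zero hr z k

theorem boxEquiv_val (hr : ∑ k, c k = r 0 + r 1) (X : Omega r c) (k : Fin n) :
    (boxEquiv hr X).1 k = X.1 0 k := rfl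

theorem blockRel_iff_lineRel (hr : ∑ k, c k = r 0 + r 1) (a b : Fin n) (X Y : Omega r c) :
    BlockRel 0 1 a b X Y ↔ LineRel a b (boxEquiv hr X) (boxEquiv hr Y) := by
  constructor
  · intro h k hka hkb
    rw [boxEquiv_val, boxEquiv_val]
    exact h 0 k (fun hh => by rcases hh.2 with e | e; exact hka e; exact hkb e)
  · intro h i k hik
    have hk : k ≠ a ∧ k ≠ b := by
      constructor
      · intro e
        refine hik ⟨?_, Or.inl e⟩
        fin_cases i
        · exact Or.inl rfl
        · exact Or.inr rfl
      · intro e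
        refine hik ⟨?_, Or.inr e⟩
        fin_cases i
        · exact Or.inl rfl
        · exact Or.inr rfl
    have h0 := h k hk.1 hk.2
    rw [boxEquiv_val, boxEquiv_val] at h0
    have hX := two_c X k
    have hY := two_c Y k
    fin_cases i
    · exact h0
    · simp only [Fin.mk_one]
      omega

theorem depth2_eq_depthB (hr : ∑ k, c k = r 0 + r 1) (a b : Fin n) (X : Omega r c) :
    depth2 a b X = depthB a b (boxEquiv hr X) := by
  have ha := two_c X a
  have hb := two_c X b
  unfold depth2 depthB
  rw [boxEquiv_val, boxEquiv_val]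
  omega

theorem level_eq_levelB (hr : ∑ k, c k = r 0 + r 1) (a b : Fin n) (X : Omega r c) :
    min (X.1 0 a) (X.1 1 b) = levelB a b (boxEquiv hr X) := by
  have hb := two_c X b
  unfold levelB
  rw [boxEquiv_val, boxEquiv_val]
  omega

/-- The surplus inequality with constants `θ n = 1 - 2 / (n (n - 1))`, `κ = 0` on classes of
two-rowed tables, from the slicing hypothesis. -/
theorem surHypG_of_sliceHyp (h : SliceHyp) :
    SurHypG (fun n => 1 - 2 / ((n : ℝ) * (n - 1))) (fun _ => 0) := by
  intro n r c f hf
  rw [zero_mul, sub_zero]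
  by_cases hne : Nonempty (Omega r c)
  · obtain ⟨X0⟩ := hne
    have hr : ∑ k, c k = r 0 + r 1 := two_total X0
    set e := boxEquiv hr with he
    set g : Box n c (r 0) → ℝ := fun z => f (e.symm z) with hg
    have hg0 : ∑ z, g z = 0 := by
      rw [← hf]
      exact Equiv.sum_comp e.symm f
    have key := sur_box h n c (r 0) g hg0
    have hpen : ∀ a b : Fin n, penB a b g
        = ∑ d ∈ Finset.Icc 1 (min (c a) (c b)),
          (∑ X ∈ univ.filter (fun X : Omega r c => d ≤ depth2 a b X), f X) ^ 2 /
            ((d : ℝ) * (d + 1) *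
              ((univ.filter (fun X : Omega r c => min (X.1 0 a) (X.1 1 b) = d)).card : ℝ)) := by
      intro a b
      unfold penB
      refine Finset.sum_congr rfl (fun d _ => ?_)
      have h1 : ∑ z ∈ univ.filter (fun z : Box n c (r 0) => d ≤ depthB a b z), g z
          = ∑ X ∈ univ.filter (fun X : Omega r c => d ≤ depth2 a b X), f X := by
        symm
        refine Finset.sum_equiv e ?_ ?_
        · intro X
          simp only [Finset.mem_filter, Finset.mem_univ, true_and]
          rw [depth2_eq_depthB hr a b X]
        · intro X _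
          rw [hg]
          simp only [Equiv.symm_apply_apply]
      have h2 : (univ.filter (fun z : Box n c (r 0) => levelB a b z = d)).card
          = (univ.filter (fun X : Omega r c => min (X.1 0 a) (X.1 1 b) = d)).card := by
        symm
        refine Finset.card_equiv e ?_
        intro X
        simp only [Finset.mem_filter, Finset.mem_univ, true_and]
        rw [level_eq_levelB hr a b X]
      rw [h1, h2]
    have hQ : ∀ a b : Fin n, QB a b g
        = ∑ X, (f X - avgRel (BlockRel 0 1 a b) f X) ^ 2 := by
      intro a b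
      unfold QB
      exact (sum_sq_transport e (BlockRel 0 1 a b) (LineRel a b)
        (fun X Y => blockRel_iff_lineRel hr a b X Y) f).symm
    simp only [hpen, hQ] at key
    exact key
  · have hemp : IsEmpty (Omega r c) := not_nonempty_iff.1 hne
    have hz : ∀ G : Omega r c → ℝ, ∀ S : Finset (Omega r c), ∑ X ∈ S, G X = 0 := by
      intro G S
      exact Finset.sum_eq_zero (fun X _ => (hemp.false X).elim)
    have e1 : ∑ a : Fin n, ∑ b : Fin n, (if a ≠ b then
        ∑ d ∈ Finset.Icc 1 (min (c a) (c b)),
          (∑ X ∈ univ.filter (fun X : Omega r c => d ≤ depth2 a b X), f X) ^ 2 /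
            ((d : ℝ) * (d + 1) *
              ((univ.filter (fun X : Omega r c => min (X.1 0 a) (X.1 1 b) = d)).card : ℝ))
        else 0) = 0 := by
      refine Finset.sum_eq_zero (fun a _ => Finset.sum_eq_zero (fun b _ => ?_))
      by_cases hab : a ≠ b
      · rw [if_pos hab]
        refine Finset.sum_eq_zero (fun d _ => ?_)
        rw [hz]
        simp
      · rw [if_neg hab]
    have e2 : ∑ a : Fin n, ∑ b : Fin n, (if a ≠ b then
        ∑ X, (f X - avgRel (BlockRel 0 1 a b) f X) ^ 2 else 0) = 0 := by
      refine Finset.sum_eq_zero (fun a _ => Finset.sum_eq_zero (fun b _ => ?_))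
      by_cases hab : a ≠ b
      · rw [if_pos hab, hz]
      · rw [if_neg hab]
    rw [e1, e2, mul_zero]

end Vale.Agent.H14.CT
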