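import Vale.Agent.H2.CT.BoxKappa

/-!
P328: the weak slicing hypothesis `SliceHypEx` (one good column for each pair of columns) and
its bridge to the main theorem.

`SliceHyp` asks the slicing inequality `∑ j, slackB (sliceFun a j f) ≤ slackB f` for every
column `a` of every class with at least three columns.  The reduction only uses, for every
pair of distinct columns `b, c` and every `f`, one column `a` different from `b` and `c` for
which the inequality holds (the column may depend on the class, on the pair and on `f`).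
`SliceHypEx` is this weaker statement; it still gives `QB b c f + QB c b f ≤ slackB f` for every
pair, hence the surplus inequality with constant `1 - 2 / (n (n - 1))`, the Poincare inequality
and the mixing time bound of the `2 x 2` heat-bath chain.
-/

namespace Vale.Agent.H14.CT

open Finset Vale.Agent.H90 Vale.Agent.H88.CT Vale.Agent.H91.CT

/-- The weak slicing hypothesis: in a class with at least three columns, for every pair of
distinct columns `b, c` and every `f` there is a column `a` different from `b` and `c` such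
that the slack of `f` is at least the sum of the slacks of its restrictions to the slices
`{z a = j}`. -/
def SliceHypEx : Prop :=
  ∀ (n : ℕ), 2 ≤ n → ∀ (s : Fin (n + 1) → ℕ) (ρ : ℕ) (b c : Fin (n + 1)), b ≠ c →
    ∀ f : Box (n + 1) s ρ → ℝ, ∃ a : Fin (n + 1), a ≠ b ∧ a ≠ c ∧
      ∑ j ∈ Finset.range (min (s a) ρ + 1), slackB (sliceFun a j f) ≤ slackB f

/-- The slicing hypothesis implies the weak slicing hypothesis. -/
theorem sliceHypEx_of_sliceHyp (h : SliceHyp) : SliceHypEx := by
  intro n hn s ρ b c _ f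
  have hcard : ({b, c} : Finset (Fin (n + 1))).card < (univ : Finset (Fin (n + 1))).card := by
    have h1 : ({b, c} : Finset (Fin (n + 1))).card ≤ 2 := Finset.card_le_two
    rw [Finset.card_univ, Fintype.card_fin]
    omega
  obtain ⟨a, -, ha⟩ := Finset.exists_mem_notMem_of_card_lt_card hcard
  refine ⟨a, ?_, ?_, h n hn s ρ a f⟩
  · intro e
    exact ha (by rw [e]; exact Finset.mem_insert_self _ _)
  · intro e
    exact ha (by rw [e]; exact Finset.mem_insert_of_mem (Finset.mem_singleton_self _))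

/-- The form of the weak slicing hypothesis with a column that depends only on the class and
on the pair: it implies `SliceHypEx`. -/
theorem sliceHypEx_of_forall
    (h : ∀ (n : ℕ), 2 ≤ n → ∀ (s : Fin (n + 1) → ℕ) (ρ : ℕ) (b c : Fin (n + 1)), b ≠ c →
      ∃ a : Fin (n + 1), a ≠ b ∧ a ≠ c ∧ ∀ f : Box (n + 1) s ρ → ℝ,
        ∑ j ∈ Finset.range (min (s a) ρ + 1), slackB (sliceFun a j f) ≤ slackB f) :
    SliceHypEx := by
  intro n hn s ρ b c hbc f
  obtain ⟨a, hab, hac, ha⟩ := h n hn s ρ b c hbc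
  exact ⟨a, hab, hac, ha f⟩

/-- Under the weak slicing hypothesis the slack dominates the block Dirichlet forms of every
pair of columns. -/
theorem slack_ge_ex (h : SliceHypEx) : ∀ n : ℕ, 2 ≤ n → ∀ (s : Fin n → ℕ) (ρ : ℕ) (b c : Fin n),
    b ≠ c → ∀ f : Box n s ρ → ℝ, QB b c f + QB c b f ≤ slackB f := by
  intro n hn
  induction n, hn using Nat.le_induction with
  | base =>
    intro s ρ b c hbc f
    rw [slack_two]
    fin_cases b <;> fin_cases c
    · exact absurd rfl hbc
    · exact le_of_eq rfl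
    · exact le_of_eq (add_comm _ _)
    · exact absurd rfl hbc
  | succ n hn ih =>
    intro s ρ b c hbc f
    obtain ⟨a, hab, hac, ha⟩ := h n hn s ρ b c hbc f
    obtain ⟨b', rfl⟩ := Fin.exists_succAbove_eq (Ne.symm hab)
    obtain ⟨c', rfl⟩ := Fin.exists_succAbove_eq (Ne.symm hac)
    have hbc' : b' ≠ c' := fun e => hbc (by rw [e])
    rw [QB_slices a b' c' f, QB_slices a c' b' f, ← Finset.sum_add_distrib]
    refine le_trans (Finset.sum_le_sum (fun j _ => ?_)) ha
    exact ih (fun k => s (a.succAbove k)) (ρ - j) b' c' hbc' (sliceFun a j f)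

/-- If the slack of `f` dominates the block Dirichlet forms of every pair of columns, then the
penalties of `f` are at most `1 - 2 / (n (n - 1))` times its block Dirichlet forms. -/
theorem sur_box_of_ge (n : ℕ) (s : Fin n → ℕ) (ρ : ℕ) (f : Box n s ρ → ℝ)
    (hf : ∑ z, f z = 0)
    (hge : ∀ b c : Fin n, b ≠ c → QB b c f + QB c b f ≤ slackB f) :
    ∑ a : Fin n, ∑ b : Fin n, (if a ≠ b then penB a b f else 0)
      ≤ (1 - 2 / ((n : ℝ) * (n - 1))) *
        ∑ a : Fin n, ∑ b : Fin n, (if a ≠ b then QB a b f else 0) := by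
  by_cases hn : 2 ≤ n
  · have hslack : slackB f = ∑ a : Fin n, ∑ b : Fin n, (if a ≠ b then QB a b f else 0)
        - ∑ a : Fin n, ∑ b : Fin n, (if a ≠ b then penB a b f else 0) := by
      unfold slackB
      rw [centreB_of_sum_zero f hf, ← Finset.sum_sub_distrib]
      refine Finset.sum_congr rfl (fun a _ => ?_)
      rw [← Finset.sum_sub_distrib]
      refine Finset.sum_congr rfl (fun b _ => ?_)
      by_cases hab : a ≠ b
      · rw [if_pos hab, if_pos hab, if_pos hab]
      · rw [if_neg hab, if_neg hab, if_neg hab, sub_zero]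
    have hsum : ∑ b : Fin n, ∑ c : Fin n, (if b ≠ c then QB b c f + QB c b f else 0)
        ≤ ∑ b : Fin n, ∑ c : Fin n, (if b ≠ c then slackB f else 0) := by
      refine Finset.sum_le_sum (fun b _ => Finset.sum_le_sum (fun c _ => ?_))
      by_cases hbc : b ≠ c
      · rw [if_pos hbc, if_pos hbc]
        exact hge b c hbc
      · rw [if_neg hbc, if_neg hbc]
    have hL : ∑ b : Fin n, ∑ c : Fin n, (if b ≠ c then QB b c f + QB c b f else 0)
        = 2 * ∑ a : Fin n, ∑ b : Fin n, (if a ≠ b then QB a b f else 0) := by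
      have e1 : ∑ b : Fin n, ∑ c : Fin n, (if b ≠ c then QB b c f + QB c b f else 0)
          = ∑ b : Fin n, ∑ c : Fin n, (if b ≠ c then QB b c f else 0)
            + ∑ b : Fin n, ∑ c : Fin n, (if b ≠ c then QB c b f else 0) := by
        rw [← Finset.sum_add_distrib]
        refine Finset.sum_congr rfl (fun b _ => ?_)
        rw [← Finset.sum_add_distrib]
        refine Finset.sum_congr rfl (fun c _ => ?_)
        by_cases hbc : b ≠ c
        · rw [if_pos hbc, if_pos hbc, if_pos hbc]
        · rw [if_neg hbc, if_neg hbc, if_neg hbc, add_zero]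
      have e2 : ∑ b : Fin n, ∑ c : Fin n, (if b ≠ c then QB c b f else 0)
          = ∑ a : Fin n, ∑ b : Fin n, (if a ≠ b then QB a b f else 0) := by
        rw [Finset.sum_comm]
        refine Finset.sum_congr rfl (fun a _ => Finset.sum_congr rfl (fun b _ => ?_))
        by_cases hab : a ≠ b
        · rw [if_pos hab, if_pos (Ne.symm hab)]
        · rw [if_neg hab, if_neg (fun e => hab (Ne.symm e))]
      rw [e1, e2]
      ring
    have hR : ∑ b : Fin n, ∑ c : Fin n, (if b ≠ c then slackB f else 0)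
        = (n : ℝ) * ((n : ℝ) - 1) * slackB f := by
      rw [← Vale.Agent.H91.CT.count_ne n, Finset.sum_mul]
      refine Finset.sum_congr rfl (fun b _ => ?_)
      rw [Finset.sum_mul]
      refine Finset.sum_congr rfl (fun c _ => ?_)
      by_cases hbc : b ≠ c
      · rw [if_pos hbc, if_pos hbc, one_mul]
      · rw [if_neg hbc, if_neg hbc, zero_mul]
    rw [hL, hR, hslack] at hsum
    have hn' : (2 : ℝ) ≤ n := by exact_mod_cast hn
    have hpos : (0 : ℝ) < (n : ℝ) * ((n : ℝ) - 1) := by nlinarith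
    have e3 : (1 - 2 / ((n : ℝ) * ((n : ℝ) - 1))) *
        ∑ a : Fin n, ∑ b : Fin n, (if a ≠ b then QB a b f else 0)
        = ∑ a : Fin n, ∑ b : Fin n, (if a ≠ b then QB a b f else 0)
          - 2 * (∑ a : Fin n, ∑ b : Fin n, (if a ≠ b then QB a b f else 0))
            / ((n : ℝ) * ((n : ℝ) - 1)) := by
      field_simp
    rw [e3, le_sub_iff_add_le, ← le_sub_iff_add_le', div_le_iff₀ hpos]
    linarith
  · have hs : Subsingleton (Fin n) := Fin.subsingleton_iff_le_one.2 (by omega)
    have e1 : ∑ a : Fin n, ∑ b : Fin n, (if a ≠ b then penB a b f else 0) = 0 :=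
      Finset.sum_eq_zero (fun a _ => Finset.sum_eq_zero (fun b _ =>
        if_neg (not_not.mpr (Subsingleton.elim a b))))
    have e2 : ∑ a : Fin n, ∑ b : Fin n, (if a ≠ b then QB a b f else 0) = 0 :=
      Finset.sum_eq_zero (fun a _ => Finset.sum_eq_zero (fun b _ =>
        if_neg (not_not.mpr (Subsingleton.elim a b))))
    rw [e1, e2, mul_zero]

/-- The surplus inequality on box-slice classes with constant `1 - 2 / (n (n - 1))`, from the
weak slicing hypothesis. -/
theorem sur_box_ex (h : SliceHypEx) (n : ℕ) (s : Fin n → ℕ) (ρ : ℕ) (f : Box n s ρ → ℝ)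
    (hf : ∑ z, f z = 0) :
    ∑ a : Fin n, ∑ b : Fin n, (if a ≠ b then penB a b f else 0)
      ≤ (1 - 2 / ((n : ℝ) * (n - 1))) *
        ∑ a : Fin n, ∑ b : Fin n, (if a ≠ b then QB a b f else 0) := by
  by_cases hn : 2 ≤ n
  · exact sur_box_of_ge n s ρ f hf (fun b c hbc => slack_ge_ex h n hn s ρ b c hbc f)
  · have hs : Subsingleton (Fin n) := Fin.subsingleton_iff_le_one.2 (by omega)
    exact sur_box_of_ge n s ρ f hf (fun b c hbc => absurd (Subsingleton.elim b c) hbc)

/-- The surplus inequality with constants `θ n = 1 - 2 / (n (n - 1))`, `κ = 0` on classes of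
two-rowed tables, from the weak slicing hypothesis. -/
theorem surHypG_of_sliceHypEx (h : SliceHypEx) :
    SurHypG (fun n => 1 - 2 / ((n : ℝ) * (n - 1))) (fun _ => 0) := by
  refine Vale.Agent.H2.CT.surHypG_of_box _ _ (fun n s ρ f hf => ?_)
  rw [zero_mul, sub_zero]
  exact sur_box_ex h n s ρ f hf

/-- Conditional main theorem: under the weak slicing hypothesis, for all `m, n ≥ 2` and all
margins the `2 x 2` heat-bath chain satisfies the Poincare inequality with constant
`δ / (m (m - 1) n (n - 1))` for every `0 < δ ≤ 2` with `δ ≤ 4 / (m (m - 1))` and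
`δ ≤ 4 / (n (n - 1))`, and its lazy version mixes within the corresponding time. -/
theorem main_slice_ex (h : SliceHypEx) {m n : ℕ} (hm : 2 ≤ m) (hn : 2 ≤ n)
    (r : Fin m → ℕ) (c : Fin n → ℕ) (δ : ℝ) (hδ0 : 0 < δ) (hδ2 : δ ≤ 2)
    (hδm : δ ≤ 4 / ((m : ℝ) * (m - 1))) (hδn : δ ≤ 4 / ((n : ℝ) * (n - 1))) :
    (∀ f : Omega r c → ℝ, ∑ X, f X = 0 →
      δ / ((m : ℝ) * (m - 1) * ((n : ℝ) * (n - 1))) * ∑ X, f X ^ 2
        ≤ (1 / 2 : ℝ) * ∑ X, ∑ Y, blockChain r c X Y * (f X - f Y) ^ 2) ∧
    ∀ (η : ℝ), 0 < η → ∀ t : ℕ,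
      2 * ((m : ℝ) * (m - 1) * ((n : ℝ) * (n - 1))) / δ
        * ((m : ℝ) * ∑ j, Real.log ((c j : ℝ) + 1) + 2 * Real.log (1 / η)) ≤ t →
      ∀ X : Omega r c,
        (1 / 2 : ℝ) * ∑ Y, |(((1 / 2 : ℝ) • (1 + blockChain r c)) ^ t) X Y
          - 1 / (Fintype.card (Omega r c) : ℝ)| ≤ η := by
  refine main_surG (fun k => 1 - 2 / ((k : ℝ) * (k - 1))) (fun _ => 0) (surHypG_of_sliceHypEx h)
    theta_le_one hm hn r c δ hδ0 hδ2 ?_ ?_
  · have e : (0 : ℝ) + 2 * (1 - (1 - 2 / ((m : ℝ) * (m - 1)))) = 4 / ((m : ℝ) * (m - 1)) := by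
      ring
    rw [e]
    exact hδm
  · have e : (0 : ℝ) + 2 * (1 - (1 - 2 / ((n : ℝ) * (n - 1)))) = 4 / ((n : ℝ) * (n - 1)) := by
      ring
    rw [e]
    exact hδn

end Vale.Agent.H14.CT
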