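import Vale.Agent.H14.CT.BoxBridge
import Vale.Agent.H14.CT.BoxFree
import Vale.Agent.H91.CT.GenChain

/-!
P328: the slicing hypothesis gives the Poincare inequality and the mixing time bound for the
`2 x 2` heat-bath chain on contingency tables with arbitrary margins.
-/

namespace Vale.Agent.H14.CT

open Finset Vale.Agent.H90 Vale.Agent.H88.CT Vale.Agent.H91.CT

theorem theta_le_one (k : ℕ) : 1 - 2 / ((k : ℝ) * (k - 1)) ≤ 1 := by
  have h : (0 : ℝ) ≤ 2 / ((k : ℝ) * (k - 1)) := by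
    rcases Nat.eq_zero_or_pos k with hk | hk
    · rw [hk]
      simp
    · have h1 : (1 : ℝ) ≤ k := by exact_mod_cast hk
      exact div_nonneg (by norm_num) (mul_nonneg (by linarith) (by linarith))
  linarith

/-- Conditional main theorem: under the slicing hypothesis, for all `m, n ≥ 2` and all margins
the `2 x 2` heat-bath chain satisfies the Poincare inequality with constant
`δ / (m (m - 1) n (n - 1))` for every `0 < δ ≤ 2` with `δ ≤ 4 / (m (m - 1))` and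
`δ ≤ 4 / (n (n - 1))`, and its lazy version mixes within the corresponding time. -/
theorem main_slice (h : SliceHyp) {m n : ℕ} (hm : 2 ≤ m) (hn : 2 ≤ n)
    (r : Fin m → ℕ) (c : Fin n → ℕ) (δ : ℝ) (hδ0 : 0 < δ) (hδ2 : δ ≤ 2)
    (hδm : δ ≤ 4 / ((m : ℝ) * (m - 1))) (hδn : δ ≤ 4 / ((n : ℝ) * (n - 1))) :
    (∀ f : Omega r c → ℝ, ∑ X, f X = 0 →
      δ / ((m : ℝ) * (m - 1) * ((n : ℝ) * (n - 1))) * ∑ X, f X ^ 2
        ≤ (1 / 2 : ℝ) * ∑ X, ∑ Y, blockChain r c X Y * (f X - f Y) ^ 2) ∧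
    ∀ (η : ℝ), 0 < η → ∀ t : ℕ,
      2 * ((m : ℝ) * (m - 1) * ((n : ℝ) * (n - 1))) / δ
        * ((m : ℝ) * ∑ j, Real.log ((c j : ℝ) + 1) + 2 * Real.log (1 / η)) ≤ t →
      ∀ X : Omega r c,
        (1 / 2 : ℝ) * ∑ Y, |(((1 / 2 : ℝ) • (1 + blockChain r c)) ^ t) X Y
          - 1 / (Fintype.card (Omega r c) : ℝ)| ≤ η := by
  refine main_surG (fun k => 1 - 2 / ((k : ℝ) * (k - 1))) (fun _ => 0) (surHypG_of_sliceHyp h)
    theta_le_one hm hn r c δ hδ0 hδ2 ?_ ?_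
  · have e : (0 : ℝ) + 2 * (1 - (1 - 2 / ((m : ℝ) * (m - 1)))) = 4 / ((m : ℝ) * (m - 1)) := by
      ring
    rw [e]
    exact hδm
  · have e : (0 : ℝ) + 2 * (1 - (1 - 2 / ((n : ℝ) * (n - 1)))) = 4 / ((n : ℝ) * (n - 1)) := by
      ring
    rw [e]
    exact hδn

/-- The same conclusion from the slice-free form of the slicing hypothesis. -/
theorem main_sliceFree (h : SliceFreeHyp) {m n : ℕ} (hm : 2 ≤ m) (hn : 2 ≤ n)
    (r : Fin m → ℕ) (c : Fin n → ℕ) (δ : ℝ) (hδ0 : 0 < δ) (hδ2 : δ ≤ 2)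
    (hδm : δ ≤ 4 / ((m : ℝ) * (m - 1))) (hδn : δ ≤ 4 / ((n : ℝ) * (n - 1))) :
    (∀ f : Omega r c → ℝ, ∑ X, f X = 0 →
      δ / ((m : ℝ) * (m - 1) * ((n : ℝ) * (n - 1))) * ∑ X, f X ^ 2
        ≤ (1 / 2 : ℝ) * ∑ X, ∑ Y, blockChain r c X Y * (f X - f Y) ^ 2) ∧
    ∀ (η : ℝ), 0 < η → ∀ t : ℕ,
      2 * ((m : ℝ) * (m - 1) * ((n : ℝ) * (n - 1))) / δ
        * ((m : ℝ) * ∑ j, Real.log ((c j : ℝ) + 1) + 2 * Real.log (1 / η)) ≤ t →
      ∀ X : Omega r c,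
        (1 / 2 : ℝ) * ∑ Y, |(((1 / 2 : ℝ) • (1 + blockChain r c)) ^ t) X Y
          - 1 / (Fintype.card (Omega r c) : ℝ)| ≤ η :=
  main_slice (sliceHyp_of_sliceFreeHyp h) hm hn r c δ hδ0 hδ2 hδm hδn

end Vale.Agent.H14.CT
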