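import Vale.Agent.H14.CT.BoxDefs
import Vale.Agent.H91.CT.Transfer

/-!
P328: slices of box-slice classes.  The slice `{z a = j}` of `Box (n + 1) s ρ` is the image of
`Box n (s ∘ a.succAbove) (ρ - j)` under insertion of the entry `j` at position `a`; sums over
the class split into sums over the slices, and the block Dirichlet form of a pair of columns
different from `a` is the sum of the block Dirichlet forms of the slices.
-/

namespace Vale.Agent.H14.CT

open Finset Vale.Agent.H90

variable {n : ℕ} {s : Fin (n + 1) → ℕ} {ρ : ℕ}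

theorem insB_aux (a : Fin (n + 1)) (j : ℕ) (hj : j ≤ s a) (hρ : j ≤ ρ)
    (w : Box n (fun k => s (a.succAbove k)) (ρ - j)) :
    (∀ k, (Fin.insertNth a j w.1 : Fin (n + 1) → ℕ) k ≤ s k) ∧
      ∑ k, (Fin.insertNth a j w.1 : Fin (n + 1) → ℕ) k = ρ := by
  constructor
  · intro k
    rcases Fin.eq_self_or_eq_succAbove a k with h | ⟨k', h⟩
    · rw [h, Fin.insertNth_apply_same]
      exact hj
    · rw [h, Fin.insertNth_apply_succAbove]
      exact w.2.1 k'
  · rw [Fin.sum_univ_succAbove _ a]
    simp only [Fin.insertNth_apply_same, Fin.insertNth_apply_succAbove]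
    rw [w.2.2]
    omega

/-- The embedding of the slice `{z a = j}`. -/
def insB (a : Fin (n + 1)) (j : ℕ) (hj : j ≤ s a) (hρ : j ≤ ρ)
    (w : Box n (fun k => s (a.succAbove k)) (ρ - j)) : Box (n + 1) s ρ :=
  ⟨Fin.insertNth a j w.1, insB_aux a j hj hρ w⟩

theorem insB_same (a : Fin (n + 1)) (j : ℕ) (hj : j ≤ s a) (hρ : j ≤ ρ)
    (w : Box n (fun k => s (a.succAbove k)) (ρ - j)) : (insB a j hj hρ w).1 a = j := by
  unfold insB
  simp only [Fin.insertNth_apply_same]

theorem insB_succAbove (a : Fin (n + 1)) (j : ℕ) (hj : j ≤ s a) (hρ : j ≤ ρ)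
    (w : Box n (fun k => s (a.succAbove k)) (ρ - j)) (k : Fin n) :
    (insB a j hj hρ w).1 (a.succAbove k) = w.1 k := by
  unfold insB
  simp only [Fin.insertNth_apply_succAbove]

theorem sliceFun_eq (a : Fin (n + 1)) (j : ℕ) (hj : j ≤ s a) (hρ : j ≤ ρ)
    (f : Box (n + 1) s ρ → ℝ) (w : Box n (fun k => s (a.succAbove k)) (ρ - j)) :
    sliceFun a j f w = f (insB a j hj hρ w) := by
  unfold sliceFun
  rw [dif_pos (insB_aux a j hj hρ w)]
  rfl

theorem insB_inj (a : Fin (n + 1)) (j : ℕ) (hj : j ≤ s a) (hρ : j ≤ ρ) :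
    Function.Injective (insB (s := s) (ρ := ρ) a j hj hρ) := by
  intro w w' h
  apply Subtype.ext
  funext k
  have := congrArg (fun z : Box (n + 1) s ρ => z.1 (a.succAbove k)) h
  simp only [insB_succAbove] at this
  exact this

theorem remB_aux (a : Fin (n + 1)) (j : ℕ) (z : Box (n + 1) s ρ) (hz : z.1 a = j) :
    ∑ k, z.1 (a.succAbove k) = ρ - j := by
  have h := z.2.2
  rw [Fin.sum_univ_succAbove _ a, hz] at h
  omega

/-- The vector `z` with the entry at `a` removed. -/
def remB (a : Fin (n + 1)) (j : ℕ) (z : Box (n + 1) s ρ) (hz : z.1 a = j) :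
    Box n (fun k => s (a.succAbove k)) (ρ - j) :=
  ⟨fun k => z.1 (a.succAbove k), fun k => z.2.1 (a.succAbove k), remB_aux a j z hz⟩

theorem remB_val (a : Fin (n + 1)) (j : ℕ) (z : Box (n + 1) s ρ) (hz : z.1 a = j) (k : Fin n) :
    (remB a j z hz).1 k = z.1 (a.succAbove k) := rfl

theorem exists_insB (a : Fin (n + 1)) (j : ℕ) (hj : j ≤ s a) (hρ : j ≤ ρ)
    (z : Box (n + 1) s ρ) (hz : z.1 a = j) : ∃ w, insB a j hj hρ w = z := by
  refine ⟨remB a j z hz, ?_⟩
  apply Subtype.ext
  funext k
  rcases Fin.eq_self_or_eq_succAbove a k with h | ⟨k', h⟩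
  · rw [h, insB_same, hz]
  · rw [h, insB_succAbove, remB_val]

/-- A sum over the class is the sum over the slices. -/
theorem sum_slices (a : Fin (n + 1)) (g : Box (n + 1) s ρ → ℝ) :
    ∑ z, g z = ∑ j ∈ Finset.range (min (s a) ρ + 1), ∑ w, sliceFun a j g w := by
  have hmaps : ∀ z ∈ (univ : Finset (Box (n + 1) s ρ)),
      z.1 a ∈ Finset.range (min (s a) ρ + 1) := by
    intro z _
    have h1 := z.2.1 a
    have h2 : z.1 a ≤ ρ := by
      have h := z.2.2
      rw [Fin.sum_univ_succAbove _ a] at h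
      omega
    rw [Finset.mem_range]
    omega
  rw [← Finset.sum_fiberwise_of_maps_to hmaps]
  refine Finset.sum_congr rfl (fun j hj => ?_)
  rw [Finset.mem_range] at hj
  have hj1 : j ≤ s a := by omega
  have hj2 : j ≤ ρ := by omega
  rw [Vale.Agent.H91.CT.TransferAux.sum_class_embed (insB a j hj1 hj2) (insB_inj a j hj1 hj2)
    (univ.filter (fun z : Box (n + 1) s ρ => z.1 a = j)) ?_ g]
  · refine Finset.sum_congr rfl (fun w _ => ?_)
    rw [sliceFun_eq a j hj1 hj2]
  · intro z
    rw [Finset.mem_filter]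
    constructor
    · intro hz
      exact exists_insB a j hj1 hj2 z hz.2
    · rintro ⟨w, rfl⟩
      exact ⟨Finset.mem_univ _, insB_same a j hj1 hj2 w⟩

theorem lineRel_insB (a : Fin (n + 1)) (j : ℕ) (hj : j ≤ s a) (hρ : j ≤ ρ) (b c : Fin n)
    (w w' : Box n (fun k => s (a.succAbove k)) (ρ - j)) :
    LineRel b c w w' ↔
      LineRel (a.succAbove b) (a.succAbove c) (insB a j hj hρ w) (insB a j hj hρ w') := by
  constructor
  · intro h k hkb hkc
    rcases Fin.eq_self_or_eq_succAbove a k with hk | ⟨k', hk⟩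
    · rw [hk, insB_same, insB_same]
    · rw [hk, insB_succAbove, insB_succAbove]
      refine h k' ?_ ?_
      · intro e
        exact hkb (by rw [hk, e])
      · intro e
        exact hkc (by rw [hk, e])
  · intro h k hkb hkc
    have h1 := h (a.succAbove k) (fun e => hkb (Fin.succAbove_right_injective e))
      (fun e => hkc (Fin.succAbove_right_injective e))
    rw [insB_succAbove, insB_succAbove] at h1
    exact h1

theorem lineRel_insB_closed (a : Fin (n + 1)) (j : ℕ) (hj : j ≤ s a) (hρ : j ≤ ρ) (b c : Fin n)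
    (w : Box n (fun k => s (a.succAbove k)) (ρ - j)) (z : Box (n + 1) s ρ)
    (h : LineRel (a.succAbove b) (a.succAbove c) (insB a j hj hρ w) z) :
    ∃ w', insB a j hj hρ w' = z := by
  refine exists_insB a j hj hρ z ?_
  have h1 := h a (Fin.succAbove_ne a b).symm (Fin.succAbove_ne a c).symm
  rw [insB_same] at h1
  exact h1.symm

/-- The block Dirichlet form of a pair of columns different from `a` is the sum of the block
Dirichlet forms of the slices. -/
theorem QB_slices (a : Fin (n + 1)) (b c : Fin n) (f : Box (n + 1) s ρ → ℝ) :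
    QB (a.succAbove b) (a.succAbove c) f
      = ∑ j ∈ Finset.range (min (s a) ρ + 1), QB b c (sliceFun a j f) := by
  unfold QB
  rw [sum_slices a
    (fun z => (f z - avgRel (LineRel (a.succAbove b) (a.succAbove c)) f z) ^ 2)]
  refine Finset.sum_congr rfl (fun j hj => ?_)
  rw [Finset.mem_range] at hj
  have hj1 : j ≤ s a := by omega
  have hj2 : j ≤ ρ := by omega
  refine Finset.sum_congr rfl (fun w _ => ?_)
  rw [sliceFun_eq a j hj1 hj2, sliceFun_eq a j hj1 hj2]
  have e := Vale.Agent.H91.CT.TransferAux.avgRel_embed (insB a j hj1 hj2) (insB_inj a j hj1 hj2)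
    (LineRel (a.succAbove b) (a.succAbove c)) (LineRel b c)
    (fun w w' => lineRel_insB a j hj1 hj2 b c w w')
    (fun w z hz => lineRel_insB_closed a j hj1 hj2 b c w z hz) f w
  rw [e]
  have e2 : (fun w' => f (insB a j hj1 hj2 w')) = sliceFun a j f := by
    funext w'
    rw [sliceFun_eq a j hj1 hj2]
  rw [e2]

end Vale.Agent.H14.CT
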