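import Vale.Agent.H14.CT.Base3
import Vale.Agent.H14.CT.BoxEx
import Vale.Agent.H92.CT.StepArms

/-!
P328: the slicing hypothesis for classes with three columns in closed form.

The slices of a three-column class are two-column classes (single lines), whose slack is the
block Dirichlet form.  Hence the slicing inequality for three columns is the capped star
inequality `Star3Hyp`: `QB b c f + QB c b f ≤ slackB f`.  It follows from the two-penalty
inequality `TwoPenHyp` (the sum of squares of the averages over the lines of the pair `b, c` is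
at most the sum of `QB - penB` over the two other pairs), because the penalty of one pair is at
most one half of the sum of squares of its line averages (`b3_pair`).  The slicing hypothesis
splits into `Star3Hyp` and the slicing hypothesis for classes with at least four columns.
-/

namespace Vale.Agent.H14.CT

open Finset Vale.Agent.H90 Vale.Agent.H92.CT

/-- The capped star inequality on three-column classes: the slack dominates the block Dirichlet
forms of every pair of columns. -/
def Star3Hyp : Prop :=
  ∀ (s : Fin 3 → ℕ) (ρ : ℕ) (b c : Fin 3), b ≠ c → ∀ f : Box 3 s ρ → ℝ,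
    QB b c f + QB c b f ≤ slackB f

/-- The two-penalty inequality on three-column classes: for three distinct columns `a, b, c`
and `f` of zero sum, the sum of squares of the averages of `f` over the lines of the pair
`b, c` is at most the sum of `QB - penB` over the pairs `a, b` and `a, c`. -/
def TwoPenHyp : Prop :=
  ∀ (s : Fin 3 → ℕ) (ρ : ℕ) (a b c : Fin 3), a ≠ b → a ≠ c → b ≠ c →
    ∀ f : Box 3 s ρ → ℝ, ∑ z, f z = 0 →
      ∑ z, avgRel (LineRel b c) f z ^ 2
        ≤ (QB a b f - penB a b f) + (QB a c f - penB a c f)

/-- The slicing hypothesis for classes with at least four columns. -/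
def SliceHypGe4 : Prop :=
  ∀ (n : ℕ), 3 ≤ n → ∀ (s : Fin (n + 1) → ℕ) (ρ : ℕ) (a : Fin (n + 1))
    (f : Box (n + 1) s ρ → ℝ),
    ∑ j ∈ Finset.range (min (s a) ρ + 1), slackB (sliceFun a j f) ≤ slackB f

/-- The weak slicing hypothesis for classes with at least four columns. -/
def SliceHypExGe4 : Prop :=
  ∀ (n : ℕ), 3 ≤ n → ∀ (s : Fin (n + 1) → ℕ) (ρ : ℕ) (b c : Fin (n + 1)), b ≠ c →
    ∀ f : Box (n + 1) s ρ → ℝ, ∃ a : Fin (n + 1), a ≠ b ∧ a ≠ c ∧
      ∑ j ∈ Finset.range (min (s a) ρ + 1), slackB (sliceFun a j f) ≤ slackB f

theorem third_col : ∀ b c : Fin 3, b ≠ c → ∃ a : Fin 3, a ≠ b ∧ a ≠ c := by decide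

theorem sum_ne_three' (a b c : Fin 3) (hab : a ≠ b) (hac : a ≠ c) (hbc : b ≠ c)
    (G : Fin 3 → Fin 3 → ℝ) :
    ∑ x : Fin 3, ∑ y : Fin 3, (if x ≠ y then G x y else 0)
      = G a b + G b a + G a c + G c a + G b c + G c b := by
  rw [sum_ne_three]
  fin_cases a <;> fin_cases b <;> fin_cases c <;>
    first
    | exact absurd rfl hab
    | exact absurd rfl hac
    | exact absurd rfl hbc
    | (simp only [Fin.zero_eta, Fin.mk_one, Fin.reduceFinMk]; ring)

theorem b3mu_le_half (s : Fin 3 → ℕ) (ρ : ℕ) (a b k : Fin 3) : b3mu s ρ a b k ≤ 1 / 2 := by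
  unfold b3mu
  split_ifs <;> norm_num

theorem slackB_centre {n : ℕ} {s : Fin n → ℕ} {ρ : ℕ} (f : Box n s ρ → ℝ) :
    slackB (centreB f) = slackB f := by
  unfold slackB
  rw [centreB_of_sum_zero (centreB f) (sum_centreB f)]
  simp only [QB_centreB]

/-- The slack of a function of zero sum on a three-column class, in terms of three distinct
columns. -/
theorem slack_three (s : Fin 3 → ℕ) (ρ : ℕ) (a b c : Fin 3) (hab : a ≠ b) (hac : a ≠ c)
    (hbc : b ≠ c) (g : Box 3 s ρ → ℝ) (hg : ∑ z, g z = 0) :
    slackB g = 2 * ((QB a b g - penB a b g) + (QB a c g - penB a c g)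
      + (QB b c g - penB b c g)) := by
  unfold slackB
  rw [centreB_of_sum_zero g hg]
  rw [sum_ne_three' a b c hab hac hbc (fun x y => QB x y g - penB x y g)]
  rw [QB_comm b a g, penB_comm b a hab.symm g, QB_comm c a g, penB_comm c a hac.symm g,
    QB_comm c b g, penB_comm c b hbc.symm g]
  ring

/-- The two-penalty inequality implies the capped star inequality. -/
theorem star3_of_twoPen (h : TwoPenHyp) : Star3Hyp := by
  intro s ρ b c hbc f
  obtain ⟨a, hab, hac⟩ := third_col b c hbc
  set g := centreB f with hg
  have hg0 : ∑ z, g z = 0 := sum_centreB f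
  have e1 : slackB f = slackB g := (slackB_centre f).symm
  have e2 : QB b c f = QB b c g := (QB_centreB b c f).symm
  have e3 : QB c b f = QB b c g := by rw [QB_comm c b f, e2]
  rw [e1, e2, e3, slack_three s ρ a b c hab hac hbc g hg0]
  have hT := h s ρ a b c hab hac hbc g hg0
  have hP := b3_pair s ρ b c a hbc hab.symm hac.symm g hg0
  have hμ := b3mu_le_half s ρ b c a
  have hsq : 0 ≤ ∑ z, avgRel (LineRel b c) g z ^ 2 :=
    Finset.sum_nonneg (fun z _ => sq_nonneg _)
  have hP' : penB b c g ≤ ∑ z, avgRel (LineRel b c) g z ^ 2 := by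
    refine le_trans hP ?_
    nlinarith
  linarith

/-- The slicing hypothesis follows from the capped star inequality on three-column classes and
the slicing hypothesis for classes with at least four columns. -/
theorem sliceHyp_of_star3 (h3 : Star3Hyp) (h4 : SliceHypGe4) : SliceHyp := by
  intro n hn s ρ a f
  rcases Nat.lt_or_ge n 3 with h | h
  · obtain rfl : n = 2 := by omega
    have e : ∀ j ∈ Finset.range (min (s a) ρ + 1), slackB (sliceFun a j f)
        = QB 0 1 (sliceFun a j f) + QB 1 0 (sliceFun a j f) := fun j _ => slack_two _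
    rw [Finset.sum_congr rfl e, Finset.sum_add_distrib, ← QB_slices a 0 1 f,
      ← QB_slices a 1 0 f]
    refine h3 s ρ (a.succAbove 0) (a.succAbove 1) ?_ f
    intro e'
    exact absurd (Fin.succAbove_right_injective e') (by decide)
  · exact h4 n h s ρ a f

/-- The weak slicing hypothesis follows from the capped star inequality on three-column classes
and the weak slicing hypothesis for classes with at least four columns. -/
theorem sliceHypEx_of_star3 (h3 : Star3Hyp) (h4 : SliceHypExGe4) : SliceHypEx := by
  intro n hn s ρ b c hbc f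
  rcases Nat.lt_or_ge n 3 with h | h
  · obtain rfl : n = 2 := by omega
    obtain ⟨a, hab, hac⟩ := third_col b c hbc
    refine ⟨a, hab, hac, ?_⟩
    have e : ∀ j ∈ Finset.range (min (s a) ρ + 1), slackB (sliceFun a j f)
        = QB 0 1 (sliceFun a j f) + QB 1 0 (sliceFun a j f) := fun j _ => slack_two _
    rw [Finset.sum_congr rfl e, Finset.sum_add_distrib, ← QB_slices a 0 1 f,
      ← QB_slices a 1 0 f]
    refine h3 s ρ (a.succAbove 0) (a.succAbove 1) ?_ f
    intro e'
    exact absurd (Fin.succAbove_right_injective e') (by decide)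
  · exact h4 n h s ρ b c hbc f

/-- Conditional main theorem: the two-penalty inequality on three-column classes and the
slicing hypothesis for classes with at least four columns give the slicing hypothesis (hence,
by `main_slice`, the Poincare inequality and the mixing bound of the `2 x 2` heat-bath
chain). -/
theorem sliceHyp_of_twoPen (h3 : TwoPenHyp) (h4 : SliceHypGe4) : SliceHyp :=
  sliceHyp_of_star3 (star3_of_twoPen h3) h4

end Vale.Agent.H14.CT
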